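import Vale.Agent.H26.SubcubePartition

/-!
# Level-one Fourier sum of one-sided conical juntas (unambiguous DNFs)

Points of `{-1,1}^n` are `x : Fin n → Bool` (`true ↦ -1`, `false ↦ 1`); a subcube is given by a
partial assignment `p : Fin n → Option Bool`.

If `g = ∑_j lam_j 1_{C_j}` with `lam_j ≥ 0`, all subcubes `C_j` of codimension at most `d`, and
`g ≤ 1` pointwise, then `∑_i |g^({i})| ≤ e^{-1/2} (√d + 1/2)`.

Proof: for the product measure `ν` with `ν(x_i = c) = (1 + r ε_i c) / 2`, `r = 1/√d`, every subcube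
with `q` coordinates fixed in the direction of the sign `ε` and `p` against it satisfies
`2^{-(p+q)} (q - p) ≤ Λ ν(C)` with `Λ = e^{-1/2} (√d + 1/2)`, and `∑_j lam_j ν(C_j) = E_ν g ≤ 1`.
-/

namespace Vale.Agent.H26.CJ

open Finset Vale.Agent.H26.SP

/-! ### the numerical inequality -/

/-- `1/√d ≤ 1` for a natural number `d` (with `1/√0 = 0`) -/
lemma inv_sqrt_le_one (d : ℕ) : 1 / Real.sqrt d ≤ 1 := by
  rcases Nat.eq_zero_or_pos d with h | h
  · subst h; simp
  · have h1 : (1 : ℝ) ≤ Real.sqrt d := by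
      rw [Real.one_le_sqrt]
      exact_mod_cast h
    rw [div_le_one (by linarith)]
    exact h1

/-- `(1 - 1/D)^p ≥ e^{-1/2}` when `2p + 1 ≤ D` -/
lemma pow_ge_exp (D : ℝ) (p : ℕ) (hp : 2 * (p : ℝ) + 1 ≤ D) :
    Real.exp (-1 / 2) ≤ (1 - 1 / D) ^ p := by
  rcases Nat.eq_zero_or_pos p with h0 | hpos
  · subst h0
    simp only [pow_zero]
    exact Real.exp_le_one_iff.mpr (by norm_num)
  · have hp1 : (1 : ℝ) ≤ p := by exact_mod_cast hpos
    have hD : (3 : ℝ) ≤ D := by linarith
    have hD0 : (0 : ℝ) < D := by linarith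
    have hD1 : (0 : ℝ) < D - 1 := by linarith
    have hc : (0 : ℝ) < 1 - 1 / D := by
      rw [sub_pos, div_lt_one hD0]; linarith
    have hlog := Real.one_sub_inv_le_log_of_pos hc
    have hinv : (1 - 1 / D)⁻¹ = D / (D - 1) := by
      field_simp
    have h1 : 1 - (1 - 1 / D)⁻¹ = -(1 / (D - 1)) := by
      rw [hinv]; field_simp; ring
    rw [h1] at hlog
    have h2 : (p : ℝ) * (1 / (D - 1)) ≤ 1 / 2 := by
      rw [mul_one_div, div_le_iff₀ hD1]; linarith
    have h3 : -1 / 2 ≤ (p : ℝ) * Real.log (1 - 1 / D) := by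
      have : (p : ℝ) * (-(1 / (D - 1))) ≤ (p : ℝ) * Real.log (1 - 1 / D) :=
        mul_le_mul_of_nonneg_left hlog (by linarith)
      linarith
    have h4 : (1 - 1 / D) ^ p = Real.exp ((p : ℝ) * Real.log (1 - 1 / D)) := by
      rw [Real.exp_nat_mul, Real.exp_log hc]
    rw [h4]
    exact Real.exp_le_exp.mpr h3

/-- the key inequality: `q - p ≤ e^{-1/2} (√d + 1/2) (1 + 1/√d)^q (1 - 1/√d)^p` for
`p + q ≤ d` -/
lemma key_num (d q p : ℕ) (h : q + p ≤ d) :
    (q : ℝ) - p ≤ Real.exp (-1 / 2) * (Real.sqrt d + 1 / 2)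
      * ((1 + 1 / Real.sqrt d) ^ q * (1 - 1 / Real.sqrt d) ^ p) := by
  have hr1 := inv_sqrt_le_one d
  have hr0 : 0 ≤ 1 / Real.sqrt d := by positivity
  have hΛ : 0 ≤ Real.exp (-1 / 2) * (Real.sqrt d + 1 / 2) := by positivity
  rcases le_or_gt q p with hqp | hqp
  · have h1 : (q : ℝ) - p ≤ 0 := by
      have : (q : ℝ) ≤ p := by exact_mod_cast hqp
      linarith
    have h2 : 0 ≤ (1 + 1 / Real.sqrt d) ^ q * (1 - 1 / Real.sqrt d) ^ p := by
      apply mul_nonneg <;> apply pow_nonneg <;> linarith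
    linarith [mul_nonneg hΛ h2]
  · obtain ⟨s, rfl⟩ : ∃ s, q = p + s := ⟨q - p, by omega⟩
    have hs : 1 ≤ s := by omega
    have hd1 : (1 : ℝ) ≤ (d : ℝ) := by
      have : 1 ≤ d := by omega
      exact_mod_cast this
    have hpd : 2 * (p : ℝ) + 1 ≤ (d : ℝ) := by
      have : 2 * p + 1 ≤ d := by omega
      exact_mod_cast this
    have hD0 : (0 : ℝ) ≤ (d : ℝ) := by linarith
    have hsq : 0 < Real.sqrt d := Real.sqrt_pos.mpr (by linarith)
    set r := 1 / Real.sqrt d with hr
    have hrpos : 0 < r := by positivity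
    have hr2 : r * r = 1 / (d : ℝ) := by
      rw [hr, div_mul_div_comm, one_mul, Real.mul_self_sqrt hD0]
    have e1 : (1 + r) ^ (p + s) * (1 - r) ^ p = (1 + r) ^ s * (1 - 1 / (d : ℝ)) ^ p := by
      rw [pow_add, ← hr2]
      have : (1 - r * r) = (1 + r) * (1 - r) := by ring
      rw [this, mul_pow]; ring
    rw [e1]
    have hA := pow_ge_exp (d : ℝ) p hpd
    have hlog := Real.le_log_one_add_of_nonneg hrpos.le
    have hexp : (1 + r) ^ s = Real.exp ((s : ℝ) * Real.log (1 + r)) := by
      rw [Real.exp_nat_mul, Real.exp_log (by linarith)]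
    have ht : (s : ℝ) * Real.log (1 + r) ≤ Real.exp ((s : ℝ) * Real.log (1 + r) - 1) := by
      have := Real.add_one_le_exp ((s : ℝ) * Real.log (1 + r) - 1)
      linarith
    have hexp2 : Real.exp ((s : ℝ) * Real.log (1 + r) - 1) = (1 + r) ^ s * Real.exp (-1) := by
      rw [sub_eq_add_neg, Real.exp_add, ← hexp]
    have hX : 0 < Real.sqrt d + 1 / 2 := by positivity
    have hfrac : 2 * r / (r + 2) = 1 / (Real.sqrt d + 1 / 2) := by
      rw [hr]; field_simp; ring
    have hB : (s : ℝ) ≤ Real.exp (-1) * (Real.sqrt d + 1 / 2) * (1 + r) ^ s := by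
      have h1 : (s : ℝ) * (1 / (Real.sqrt d + 1 / 2)) ≤ (1 + r) ^ s * Real.exp (-1) := by
        calc (s : ℝ) * (1 / (Real.sqrt d + 1 / 2)) = s * (2 * r / (r + 2)) := by rw [hfrac]
          _ ≤ s * Real.log (1 + r) := mul_le_mul_of_nonneg_left hlog (Nat.cast_nonneg s)
          _ ≤ Real.exp ((s : ℝ) * Real.log (1 + r) - 1) := ht
          _ = (1 + r) ^ s * Real.exp (-1) := hexp2
      have h2 := mul_le_mul_of_nonneg_right h1 hX.le
      have h3 : (s : ℝ) * (1 / (Real.sqrt d + 1 / 2)) * (Real.sqrt d + 1 / 2) = s := by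
        field_simp
      rw [h3] at h2
      linarith
    have hE : Real.exp (-1 / 2) * Real.exp (-1 / 2) = Real.exp (-1) := by
      rw [← Real.exp_add]; norm_num
    have hs_cast : ((p + s : ℕ) : ℝ) - p = s := by push_cast; ring
    rw [hs_cast]
    have hpow0 : 0 ≤ (1 + r) ^ s := by positivity
    calc (s : ℝ) ≤ Real.exp (-1) * (Real.sqrt d + 1 / 2) * (1 + r) ^ s := hB
      _ = Real.exp (-1 / 2) * (Real.sqrt d + 1 / 2) * ((1 + r) ^ s * Real.exp (-1 / 2)) := by
          rw [← hE]; ring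
      _ ≤ Real.exp (-1 / 2) * (Real.sqrt d + 1 / 2) * ((1 + r) ^ s * (1 - 1 / (d : ℝ)) ^ p) :=
          mul_le_mul_of_nonneg_left (mul_le_mul_of_nonneg_left hA hpow0) hΛ

/-! ### product measures of subcubes -/

variable {n : ℕ}

/-- value attached to a coordinate of a partial assignment: `s` if the coordinate is free,
`wv b` if it is fixed to `b` -/
def mval (o : Option Bool) (s : ℝ) (wv : Bool → ℝ) : ℝ :=
  match o with
  | none => s
  | some b => wv b

@[simp] lemma mval_none (s : ℝ) (wv : Bool → ℝ) : mval none s wv = s := rfl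

@[simp] lemma mval_some (b : Bool) (s : ℝ) (wv : Bool → ℝ) : mval (some b) s wv = wv b := rfl

/-- the indicator of a subcube as a product over the coordinates -/
lemma ind_eq_prod (p : Fin n → Option Bool) (x : Fin n → Bool) :
    ind p x = ∏ i, (if p i ≠ some (!x i) then (1 : ℝ) else 0) := by
  rw [Finset.prod_boole]
  unfold ind
  have : (∀ i b, p i = some b → x i = b) ↔ (∀ i ∈ (univ : Finset (Fin n)), p i ≠ some (!x i)) := by
    constructor
    · intro h i _ hi
      have := h i _ hi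
      cases hx : x i <;> simp [hx] at this
    · intro h i b hi
      have := h i (Finset.mem_univ i)
      rw [hi] at this
      cases hx : x i <;> cases b <;> simp_all
  by_cases h : ∀ i b, p i = some b → x i = b
  · rw [if_pos h, if_pos (this.mp h)]
  · rw [if_neg h, if_neg (fun h' => h (this.mpr h'))]

/-- the mass of a subcube under a product weight -/
lemma sum_ind_mul_prod (p : Fin n → Option Bool) (w : Fin n → Bool → ℝ) :
    ∑ x, ind p x * ∏ i, w i (x i) = ∏ i, mval (p i) (w i true + w i false) (w i) := by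
  have h : ∀ x : Fin n → Bool, ind p x * ∏ i, w i (x i)
      = ∏ i, ((if p i ≠ some (!x i) then (1 : ℝ) else 0) * w i (x i)) := by
    intro x
    rw [ind_eq_prod, Finset.prod_mul_distrib]
  have h2 : ∑ x : Fin n → Bool, ∏ i, ((if p i ≠ some (!x i) then (1 : ℝ) else 0) * w i (x i))
      = ∏ i : Fin n, ∑ c : Bool, ((if p i ≠ some (!c) then (1 : ℝ) else 0) * w i c) :=
    (Fintype.prod_sum
      (fun (i : Fin n) (c : Bool) => (if p i ≠ some (!c) then (1 : ℝ) else 0) * w i c)).symm
  rw [Finset.sum_congr rfl (fun x _ => h x), h2]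
  apply Finset.prod_congr rfl
  intro i _
  rw [Fintype.sum_bool]
  cases hi : p i with
  | none => simp
  | some b => cases b <;> simp

/-- the inequality for one subcube -/
lemma cube_ineq (p : Fin n → Option Bool) (e : Fin n → ℝ) (he : ∀ i, e i = 1 ∨ e i = -1)
    (d : ℕ) (hd : (univ.filter (fun i => p i ≠ none)).card ≤ d) :
    (∑ i, e i * beta p i) * ∏ i, mval (p i) 1 (fun _ => (1 / 2 : ℝ))
      ≤ Real.exp (-1 / 2) * (Real.sqrt d + 1 / 2)
        * ∏ i, mval (p i) 1 (fun c => (1 + 1 / Real.sqrt d * (e i * sg c)) / 2) := by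
  set r := 1 / Real.sqrt d with hr
  set u : Fin n → ℝ := fun i => e i * beta p i with hu
  -- the three possible shapes of a coordinate
  have hcase : ∀ i, (p i = none ∧ u i = 0) ∨
      (∃ b, p i = some b ∧ e i * sg b = u i ∧ (u i = 1 ∨ u i = -1)) := by
    intro i
    cases hi : p i with
    | none => left; exact ⟨rfl, by simp [hu, beta_none p i hi]⟩
    | some b =>
      right
      refine ⟨b, rfl, by simp [hu, beta_some p i b hi], ?_⟩
      simp only [hu, beta_some p i b hi]
      rcases he i with h | h <;> cases b <;> simp [h, sg]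
  set Q := univ.filter (fun i => u i = 1) with hQ
  set P := univ.filter (fun i => u i = -1) with hP
  have hsum : ∑ i, u i = (Q.card : ℝ) - P.card := by
    rw [hQ, hP, Finset.card_filter, Finset.card_filter]
    push_cast
    rw [← Finset.sum_sub_distrib]
    apply Finset.sum_congr rfl
    intro i _
    rcases hcase i with ⟨_, h0⟩ | ⟨b, _, _, h1 | h1⟩
    · rw [h0]; norm_num
    · rw [h1]; norm_num
    · rw [h1]; norm_num
  have hprod1 : ∏ i, mval (p i) 1 (fun _ => (1 / 2 : ℝ))
      = (1 / 2 : ℝ) ^ Q.card * (1 / 2 : ℝ) ^ P.card := by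
    have : ∀ i, mval (p i) 1 (fun _ => (1 / 2 : ℝ))
        = (if u i = 1 then (1 / 2 : ℝ) else 1) * (if u i = -1 then (1 / 2 : ℝ) else 1) := by
      intro i
      rcases hcase i with ⟨hi, h0⟩ | ⟨b, hi, _, h1 | h1⟩
      · rw [hi, h0]; norm_num
      · rw [hi, h1]; norm_num
      · rw [hi, h1]; norm_num
    rw [Finset.prod_congr rfl (fun i _ => this i), Finset.prod_mul_distrib, Finset.prod_ite,
      Finset.prod_ite]
    simp [hQ, hP]
  have hprod2 : ∏ i, mval (p i) 1 (fun c => (1 + r * (e i * sg c)) / 2)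
      = ((1 + r) / 2) ^ Q.card * ((1 - r) / 2) ^ P.card := by
    have : ∀ i, mval (p i) 1 (fun c => (1 + r * (e i * sg c)) / 2)
        = (if u i = 1 then (1 + r) / 2 else 1) * (if u i = -1 then (1 - r) / 2 else 1) := by
      intro i
      rcases hcase i with ⟨hi, h0⟩ | ⟨b, hi, hb, h1 | h1⟩
      · rw [hi, h0]; norm_num
      · rw [hi, mval_some, hb, h1]; norm_num
      · rw [hi, mval_some, hb, h1]; norm_num
        ring
    rw [Finset.prod_congr rfl (fun i _ => this i), Finset.prod_mul_distrib, Finset.prod_ite,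
      Finset.prod_ite]
    simp only [Finset.prod_const_one, mul_one, Finset.prod_const]
    rfl
  have hcard : Q.card + P.card ≤ d := by
    refine le_trans ?_ hd
    rw [hQ, hP, Finset.card_filter, Finset.card_filter, Finset.card_filter,
      ← Finset.sum_add_distrib]
    apply Finset.sum_le_sum
    intro i _
    rcases hcase i with ⟨_, h0⟩ | ⟨b, hi, _, h1 | h1⟩
    · rw [h0]; norm_num
    · rw [hi, h1]; norm_num; simp
    · rw [hi, h1]; norm_num; simp
  have hkey := key_num d Q.card P.card hcard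
  rw [← hr] at hkey
  have hu_sum : ∑ i, e i * beta p i = ∑ i, u i := rfl
  rw [hu_sum, hsum, hprod1, hprod2]
  have hhalf : 0 ≤ (1 / 2 : ℝ) ^ Q.card * (1 / 2 : ℝ) ^ P.card := by positivity
  have e2 : ((1 + r) / 2) ^ Q.card * ((1 - r) / 2) ^ P.card
      = ((1 + r) ^ Q.card * (1 - r) ^ P.card) * ((1 / 2 : ℝ) ^ Q.card * (1 / 2 : ℝ) ^ P.card) := by
    rw [div_pow, div_pow]; simp only [one_div, inv_pow]; ring
  calc ((Q.card : ℝ) - P.card) * ((1 / 2 : ℝ) ^ Q.card * (1 / 2 : ℝ) ^ P.card)
      ≤ (Real.exp (-1 / 2) * (Real.sqrt d + 1 / 2) * ((1 + r) ^ Q.card * (1 - r) ^ P.card))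
          * ((1 / 2 : ℝ) ^ Q.card * (1 / 2 : ℝ) ^ P.card) :=
        mul_le_mul_of_nonneg_right hkey hhalf
    _ = Real.exp (-1 / 2) * (Real.sqrt d + 1 / 2)
          * (((1 + r) / 2) ^ Q.card * ((1 - r) / 2) ^ P.card) := by
        rw [e2]; ring

/-! ### the main bound -/

section main

variable {J : Type*} [Fintype J]

/-- signed level-one sum of a conical junta bounded by one -/
theorem conical_signed (n : ℕ) (a : J → Fin n → Option Bool) (lam : J → ℝ) (d : ℕ)
    (hlam : ∀ j, 0 ≤ lam j)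
    (hd : ∀ j, 0 < lam j → (univ.filter (fun i => a j i ≠ none)).card ≤ d)
    (hle : ∀ x, ∑ j, lam j * ind (a j) x ≤ 1)
    (e : Fin n → ℝ) (he : ∀ i, e i = 1 ∨ e i = -1) :
    ∑ i, e i * (∑ x, (∑ j, lam j * ind (a j) x) * sg (x i))
      ≤ Real.exp (-1 / 2) * (Real.sqrt d + 1 / 2) * 2 ^ n := by
  set Λ := Real.exp (-1 / 2) * (Real.sqrt d + 1 / 2) with hΛdef
  have hΛ : 0 ≤ Λ := by positivity
  set r := 1 / Real.sqrt d with hr
  have hr0 : 0 ≤ r := by positivity
  have hr1 : r ≤ 1 := inv_sqrt_le_one d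
  set w : Fin n → Bool → ℝ := fun i c => (1 + r * (e i * sg c)) / 2 with hw
  have hw_sum : ∀ i, w i true + w i false = 1 := by
    intro i; simp only [hw, sg]; simp; ring
  have hw_nonneg : ∀ i c, 0 ≤ w i c := by
    intro i c
    have h1 : -1 ≤ e i * sg c ∧ e i * sg c ≤ 1 := by
      rcases he i with h | h <;> cases c <;> simp [h, sg]
    have h2 : -1 ≤ r * (e i * sg c) := by nlinarith [h1.1, h1.2]
    simp only [hw]; linarith
  have hW_nonneg : ∀ x : Fin n → Bool, 0 ≤ ∏ i, w i (x i) :=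
    fun x => Finset.prod_nonneg (fun i _ => hw_nonneg i (x i))
  have hW_total : ∑ x : Fin n → Bool, ∏ i, w i (x i) = 1 := by
    have h0 := sum_ind_mul_prod (fun _ : Fin n => (none : Option Bool)) w
    have h1 : ∀ x : Fin n → Bool, ind (fun _ : Fin n => (none : Option Bool)) x = 1 := by
      intro x; simp [ind]
    simp only [h1, one_mul, mval_none, hw_sum, Finset.prod_const_one] at h0
    exact h0
  -- number of points of a cube
  have hcount : ∀ j, ∑ x, ind (a j) x = 2 ^ n * ∏ i, mval (a j i) 1 (fun _ => (1 / 2 : ℝ)) := by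
    intro j
    have h0 := sum_ind_mul_prod (a j) (fun _ _ => (1 / 2 : ℝ))
    have h2 : (1 / 2 + 1 / 2 : ℝ) = 1 := by norm_num
    simp only [h2, Finset.prod_const, Finset.card_univ, Fintype.card_fin] at h0
    rw [← h0, ← Finset.sum_mul]
    have : (2 : ℝ) ^ n * (1 / 2 : ℝ) ^ n = 1 := by
      rw [← mul_pow]; norm_num
    rw [mul_comm ((2 : ℝ) ^ n), mul_assoc, mul_comm ((1 / 2 : ℝ) ^ n), this, mul_one]
  -- mass of a cube
  have hmass : ∀ j, ∑ x, ind (a j) x * ∏ i, w i (x i) = ∏ i, mval (a j i) 1 (w i) := by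
    intro j
    have h0 := sum_ind_mul_prod (a j) w
    simp only [hw_sum] at h0
    exact h0
  -- level one of a cube
  have hlevel : ∀ j, ∑ i, e i * ∑ x, ind (a j) x * sg (x i)
      = (∑ i, e i * beta (a j) i) * ∑ x, ind (a j) x := by
    intro j
    rw [Finset.sum_mul]
    apply Finset.sum_congr rfl
    intro i _
    rw [sum_ind_sg]; ring
  -- exchange the sums
  have hswap : ∑ i, e i * (∑ x, (∑ j, lam j * ind (a j) x) * sg (x i))
      = ∑ j, lam j * ∑ i, e i * ∑ x, ind (a j) x * sg (x i) := by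
    calc ∑ i, e i * (∑ x, (∑ j, lam j * ind (a j) x) * sg (x i))
        = ∑ i, ∑ j, lam j * (e i * ∑ x, ind (a j) x * sg (x i)) := by
          apply Finset.sum_congr rfl
          intro i _
          have : ∑ x, (∑ j, lam j * ind (a j) x) * sg (x i)
              = ∑ j, lam j * ∑ x, ind (a j) x * sg (x i) := by
            simp only [Finset.sum_mul, Finset.mul_sum]
            rw [Finset.sum_comm]
            apply Finset.sum_congr rfl
            intro j _
            apply Finset.sum_congr rfl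
            intro x _
            ring
          rw [this, Finset.mul_sum]
          apply Finset.sum_congr rfl
          intro j _
          ring
      _ = ∑ j, ∑ i, lam j * (e i * ∑ x, ind (a j) x * sg (x i)) := Finset.sum_comm
      _ = ∑ j, lam j * ∑ i, e i * ∑ x, ind (a j) x * sg (x i) := by
          apply Finset.sum_congr rfl
          intro j _
          rw [Finset.mul_sum]
  rw [hswap]
  have h2n : (0 : ℝ) ≤ 2 ^ n := by positivity
  calc ∑ j, lam j * ∑ i, e i * ∑ x, ind (a j) x * sg (x i)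
      ≤ ∑ j, lam j * (Λ * ∏ i, mval (a j i) 1 (w i)) * 2 ^ n := by
        apply Finset.sum_le_sum
        intro j _
        rw [hlevel j, hcount j]
        rcases (hlam j).eq_or_lt with h0 | hpos
        · rw [← h0]; simp
        · have hc := cube_ineq (a j) e he d (hd j hpos)
          rw [← hr] at hc
          have hc' : (∑ i, e i * beta (a j) i) * ∏ i, mval (a j i) 1 (fun _ => (1 / 2 : ℝ))
              ≤ Λ * ∏ i, mval (a j i) 1 (w i) := hc
          have := mul_le_mul_of_nonneg_left hc' (mul_nonneg hpos.le h2n)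
          calc lam j * ((∑ i, e i * beta (a j) i)
                  * (2 ^ n * ∏ i, mval (a j i) 1 (fun _ => (1 / 2 : ℝ))))
              = lam j * 2 ^ n * ((∑ i, e i * beta (a j) i)
                  * ∏ i, mval (a j i) 1 (fun _ => (1 / 2 : ℝ))) := by ring
            _ ≤ lam j * 2 ^ n * (Λ * ∏ i, mval (a j i) 1 (w i)) := this
            _ = lam j * (Λ * ∏ i, mval (a j i) 1 (w i)) * 2 ^ n := by ring
    _ = Λ * 2 ^ n * ∑ x, (∏ i, w i (x i)) * ∑ j, lam j * ind (a j) x := by
        have : ∑ x, (∏ i, w i (x i)) * ∑ j, lam j * ind (a j) x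
            = ∑ j, lam j * ∏ i, mval (a j i) 1 (w i) := by
          simp only [Finset.mul_sum]
          rw [Finset.sum_comm]
          apply Finset.sum_congr rfl
          intro j _
          rw [← hmass j, Finset.mul_sum]
          apply Finset.sum_congr rfl
          intro x _
          ring
        rw [this, Finset.mul_sum]
        apply Finset.sum_congr rfl
        intro j _
        ring
    _ ≤ Λ * 2 ^ n * ∑ x : Fin n → Bool, (∏ i, w i (x i)) * 1 := by
        apply mul_le_mul_of_nonneg_left _ (mul_nonneg hΛ h2n)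
        apply Finset.sum_le_sum
        intro x _
        exact mul_le_mul_of_nonneg_left (hle x) (hW_nonneg x)
    _ = Λ * 2 ^ n := by
        simp only [mul_one]
        rw [hW_total, mul_one]

/-- **Level-one bound for conical juntas**: if `g = ∑_j lam_j 1_{C_j}` with `lam_j ≥ 0`, subcubes
`C_j` of codimension at most `d` and `g ≤ 1`, then `∑_i |g^({i})| ≤ e^{-1/2} (√d + 1/2)`. -/
theorem conical_abs (n : ℕ) (a : J → Fin n → Option Bool) (lam : J → ℝ) (d : ℕ)
    (hlam : ∀ j, 0 ≤ lam j)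
    (hd : ∀ j, 0 < lam j → (univ.filter (fun i => a j i ≠ none)).card ≤ d)
    (hle : ∀ x, ∑ j, lam j * ind (a j) x ≤ 1) :
    ∑ i, |(∑ x, (∑ j, lam j * ind (a j) x) * sg (x i)) / 2 ^ n|
      ≤ Real.exp (-1 / 2) * (Real.sqrt d + 1 / 2) := by
  set c : Fin n → ℝ := fun i => ∑ x, (∑ j, lam j * ind (a j) x) * sg (x i) with hc
  set e : Fin n → ℝ := fun i => if 0 ≤ c i then 1 else -1 with he
  have he1 : ∀ i, e i = 1 ∨ e i = -1 := by
    intro i; simp only [he]; split_ifs <;> simp
  have habs : ∀ i, e i * c i = |c i| := by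
    intro i
    simp only [he]
    split_ifs with h
    · rw [abs_of_nonneg h, one_mul]
    · rw [abs_of_neg (not_le.mp h)]; ring
  have h := conical_signed n a lam d hlam hd hle e he1
  have h2n : (0 : ℝ) < 2 ^ n := by positivity
  have : ∑ i, |c i / 2 ^ n| = (∑ i, e i * c i) / 2 ^ n := by
    rw [Finset.sum_div]
    apply Finset.sum_congr rfl
    intro i _
    rw [abs_div, abs_of_pos h2n, habs]
  rw [this, div_le_iff₀ h2n]
  exact h

end main

/-- **Statement for functions**: if `f = σ (1 - 2 ∑_j lam_j 1_{C_j})` with `σ = ±1`, `lam_j ≥ 0`,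
subcubes `C_j` of codimension at most `d` and `∑_j lam_j 1_{C_j} ≤ 1`, then
`∑_i |f^({i})| ≤ 2 e^{-1/2} (√d + 1/2)`. -/
theorem conical_statement (n : ℕ) (J : Type) [Fintype J]
    (a : J → Fin n → Option Bool) (lam : J → ℝ) (f : (Fin n → Bool) → ℝ) (σ : ℝ) (d : ℕ)
    (hσ : σ = 1 ∨ σ = -1)
    (hlam : ∀ j, 0 ≤ lam j)
    (hd : ∀ j, 0 < lam j → (Finset.univ.filter (fun i => a j i ≠ none)).card ≤ d)
    (hle : ∀ x : Fin n → Bool,
      (∑ j, (if ∀ i b, a j i = some b → x i = b then lam j else 0)) ≤ 1)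
    (hf : ∀ x : Fin n → Bool,
      f x = σ * (1 - 2 * ∑ j, (if ∀ i b, a j i = some b → x i = b then lam j else 0))) :
    ∑ i : Fin n, |(∑ x : Fin n → Bool, f x * (if x i then (-1 : ℝ) else 1)) / 2 ^ n|
      ≤ 2 * Real.exp (-1 / 2) * (Real.sqrt d + 1 / 2) := by
  have hg : ∀ x : Fin n → Bool,
      (∑ j, (if ∀ i b, a j i = some b → x i = b then lam j else 0))
        = ∑ j, lam j * ind (a j) x := by
    intro x
    apply Finset.sum_congr rfl
    intro j _
    unfold ind
    split_ifs <;> simp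
  have hle' : ∀ x, ∑ j, lam j * ind (a j) x ≤ 1 := fun x => by rw [← hg x]; exact hle x
  have hmain := conical_abs n a lam d hlam hd hle'
  have hz : ∀ i : Fin n, ∑ x : Fin n → Bool, sg (x i) = 0 := by
    intro i
    apply sum_zero_of_flip i
    intro x
    rw [flipE_apply_self, sg_not]
  have hσabs : |σ| = 1 := by rcases hσ with h | h <;> rw [h] <;> simp
  have hterm : ∀ i : Fin n,
      |(∑ x : Fin n → Bool, f x * (if x i then (-1 : ℝ) else 1)) / 2 ^ n|
        = 2 * |(∑ x, (∑ j, lam j * ind (a j) x) * sg (x i)) / 2 ^ n| := by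
    intro i
    have h1 : ∑ x : Fin n → Bool, f x * (if x i then (-1 : ℝ) else 1)
        = -2 * σ * ∑ x, (∑ j, lam j * ind (a j) x) * sg (x i) := by
      have h2 : ∀ x : Fin n → Bool, f x * (if x i then (-1 : ℝ) else 1)
          = σ * sg (x i) - 2 * σ * ((∑ j, lam j * ind (a j) x) * sg (x i)) := by
        intro x
        rw [hf x, hg x]
        change σ * (1 - 2 * ∑ j, lam j * ind (a j) x) * sg (x i) = _
        ring
      rw [Finset.sum_congr rfl (fun x _ => h2 x), Finset.sum_sub_distrib, ← Finset.mul_sum,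
        ← Finset.mul_sum, hz i]
      ring
    rw [h1, mul_div_assoc, abs_mul, abs_mul, hσabs]
    norm_num
  rw [Finset.sum_congr rfl (fun i _ => hterm i), ← Finset.mul_sum]
  have : 2 * Real.exp (-1 / 2) * (Real.sqrt d + 1 / 2)
      = 2 * (Real.exp (-1 / 2) * (Real.sqrt d + 1 / 2)) := by ring
  rw [this]
  exact mul_le_mul_of_nonneg_left hmain (by norm_num)

end Vale.Agent.H26.CJ
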