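import Vale.Agent.H26.D4Sharp

/-!
# The sharp level-one bound when the odd part has degree at most three (seat H26)

The proof of `Vale.Agent.H26.D4.core` only uses the Fourier coefficients of odd order: the
level-one identity holds as soon as all coefficients `F^(S)` with `|S|` odd and `|S| ≥ 5` vanish
(apply the identity of seat H39 to `x ↦ F x - F (-x)`), and this condition is preserved by flips
of coordinates and by identifying variables.  So the bound `7/4` holds for every Boolean function
whose coefficients of odd order at least five vanish, whatever its coefficients of even order.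
-/

namespace Vale.Agent.H26.D4

open Finset Vale.Agent.H39

variable {n : ℕ}

/-- The antipodal difference `x ↦ F x - F (-x)`. -/
noncomputable def Nd (F : (Fin n → Bool) → ℝ) : (Fin n → Bool) → ℝ :=
  fun x => F x - F (flipCube (fun _ => true) x)

lemma flipCube_true_const (b : Bool) :
    flipCube (fun _ => true) (fun _ : Fin n => b) = fun _ => !b := by
  funext k
  simp [flipCube]

lemma flipCube_true_update (b c : Bool) (i : Fin n) :
    flipCube (fun _ => true) (Function.update (fun _ : Fin n => b) i c)
      = Function.update (fun _ => !b) i (!c) := by
  funext k
  by_cases h : k = i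
  · subst h
    simp [flipCube]
  · simp [flipCube, Function.update_of_ne h]

lemma coef_Nd (F : (Fin n → Bool) → ℝ) (S : Finset (Fin n)) :
    coef (Nd F) S = (1 - (-1 : ℝ) ^ S.card) * coef F S := by
  have h1 : coef (Nd F) S = coef F S - coef (fun x => F (flipCube (fun _ => true) x)) S :=
    coef_sub F (fun x => F (flipCube (fun _ => true) x)) S
  have h2 : ∏ i ∈ S, bsign ((fun _ : Fin n => true) i) = (-1 : ℝ) ^ S.card := by
    simp [bsign]
  rw [h1, coef_flip, h2]
  ring

lemma Nd_deg {F : (Fin n → Bool) → ℝ}
    (hodd : ∀ S : Finset (Fin n), Odd S.card → 4 < S.card → coef F S = 0) :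
    ∀ S : Finset (Fin n), 4 < S.card → coef (Nd F) S = 0 := by
  intro S hS
  rw [coef_Nd]
  rcases Nat.even_or_odd S.card with he | ho
  · rw [he.neg_one_pow]
    ring
  · rw [hodd S ho hS, mul_zero]

/-- **Level-one identity when the odd part has degree at most three.** -/
theorem levelOne_identity_odd (F : (Fin n → Bool) → ℝ)
    (hodd : ∀ S : Finset (Fin n), Odd S.card → 4 < S.card → coef F S = 0) :
    8 * ∑ i : Fin n, coef F {i}
      = 6 * (F (fun _ => false) - F (fun _ => true))
        - ∑ i : Fin n, (F (fun _ => false) - F (Function.update (fun _ => false) i true))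
        - ∑ i : Fin n, (F (Function.update (fun _ => true) i false) - F (fun _ => true)) := by
  have h := levelOne_identity (Nd F) (Nd_deg hodd)
  have e0 : ∀ i : Fin n, coef (Nd F) {i} = 2 * coef F {i} := by
    intro i
    rw [coef_Nd, Finset.card_singleton]
    ring
  have ef : Nd F (fun _ => false) = F (fun _ => false) - F (fun _ => true) := by
    show F (fun _ => false) - F (flipCube (fun _ => true) (fun _ => false)) = _
    rw [flipCube_true_const]
    rfl
  have et : Nd F (fun _ => true) = F (fun _ => true) - F (fun _ => false) := by
    show F (fun _ => true) - F (flipCube (fun _ => true) (fun _ => true)) = _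
    rw [flipCube_true_const]
    rfl
  have ep : ∀ i : Fin n, Nd F (Function.update (fun _ => false) i true)
      = F (Function.update (fun _ => false) i true)
        - F (Function.update (fun _ => true) i false) := by
    intro i
    show F (Function.update (fun _ => false) i true)
      - F (flipCube (fun _ => true) (Function.update (fun _ => false) i true)) = _
    rw [flipCube_true_update]
    rfl
  have eq : ∀ i : Fin n, Nd F (Function.update (fun _ => true) i false)
      = F (Function.update (fun _ => true) i false)
        - F (Function.update (fun _ => false) i true) := by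
    intro i
    show F (Function.update (fun _ => true) i false)
      - F (flipCube (fun _ => true) (Function.update (fun _ => true) i false)) = _
    rw [flipCube_true_update]
    rfl
  simp only [e0, ef, et, ep, eq] at h
  rw [← Finset.mul_sum] at h
  simp only [Finset.sum_sub_distrib, Finset.sum_const, Finset.card_univ, Fintype.card_fin,
    nsmul_eq_mul] at h ⊢
  linarith

lemma Hd_odd (j : Fin n) {F : (Fin n → Bool) → ℝ}
    (hodd : ∀ S : Finset (Fin n), Odd S.card → 4 < S.card → coef F S = 0) :
    ∀ S : Finset (Fin n), Odd S.card → 4 < S.card → coef (Hd j F) S = 0 := by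
  intro S ho hS
  rw [coef_Hd, hodd S ho hS, mul_zero]

lemma mrg_par_card_odd {n m : ℕ} (φ : Fin n → Fin m) (S : Finset (Fin n))
    (h : Odd (mrg_par φ S).card) : Odd S.card := by
  have hcard : S.card = ∑ j : Fin m, (S.filter (fun i => φ i = j)).card :=
    Finset.card_eq_sum_card_fiberwise (fun i _ => Finset.mem_coe.mpr (Finset.mem_univ (φ i)))
  rw [hcard, Finset.odd_sum_iff_odd_card_odd]
  exact h

/-- Identifying variables preserves the vanishing of the coefficients of odd order above four. -/
theorem coef_comp_odd {n m : ℕ} (φ : Fin n → Fin m) (F : (Fin n → Bool) → ℝ)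
    (hodd : ∀ S : Finset (Fin n), Odd S.card → 4 < S.card → coef F S = 0) :
    ∀ T : Finset (Fin m), Odd T.card → 4 < T.card →
      coef (fun y : Fin m → Bool => F (fun i => y (φ i))) T = 0 := by
  intro T hTo hT
  unfold coef
  have hsum : ∑ y : Fin m → Bool, F (fun i => y (φ i)) * chi T y = 0 := by
    have h1 : ∀ y : Fin m → Bool, F (fun i => y (φ i)) * chi T y
        = ∑ S : Finset (Fin n), coef F S * (chi (mrg_par φ S) y * chi T y) := by
      intro y
      rw [coef_inversion F (fun i => y (φ i)), Finset.sum_mul]
      apply Finset.sum_congr rfl
      intro S _
      rw [mrg_chi_comp, mul_assoc]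
    simp_rw [h1]
    rw [Finset.sum_comm]
    apply Finset.sum_eq_zero
    intro S _
    rw [← Finset.mul_sum, mrg_chi_orth]
    split_ifs with hpar
    · have hcard : 4 < S.card := by
        have := mrg_card_par φ S
        rw [hpar] at this
        omega
      have ho : Odd S.card := mrg_par_card_odd φ S (by rw [hpar]; exact hTo)
      rw [hodd S ho hcard, zero_mul]
    · rw [mul_zero]
  rw [hsum, zero_div]

/-- **Pair identity when the odd part has degree at most three.** -/
theorem pair_identity_odd (F : (Fin n → Bool) → ℝ)
    (hodd : ∀ S : Finset (Fin n), Odd S.card → 4 < S.card → coef F S = 0) :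
    ∑ j : Fin n, ∑ i : Fin n,
        (F (fl j (Function.update (fun _ => false) i true))
          - F (fl j (Function.update (fun _ => true) i false)))
      = (2 * (n : ℝ) - 8) * ∑ i : Fin n,
          (F (Function.update (fun _ => false) i true) - F (Function.update (fun _ => true) i false))
        - ((n : ℝ) ^ 2 - 8 * n + 12) * (F (fun _ => false) - F (fun _ => true)) := by
  have h1 := levelOne_identity_odd F hodd
  have h2 : ∀ j : Fin n, 16 * coef F {j}
      = 6 * ((F (fun _ => false) - F (Function.update (fun _ => false) j true))
            - (F (fun _ => true) - F (Function.update (fun _ => true) j false)))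
        - ∑ i : Fin n, ((F (fun _ => false) - F (Function.update (fun _ => false) j true))
            - (F (Function.update (fun _ => false) i true)
                - F (fl j (Function.update (fun _ => false) i true))))
        - ∑ i : Fin n, ((F (Function.update (fun _ => true) i false)
                - F (fl j (Function.update (fun _ => true) i false)))
            - (F (fun _ => true) - F (Function.update (fun _ => true) j false))) := by
    intro j
    have h := levelOne_identity_odd (Hd j F) (Hd_odd j hodd)
    rw [Hd_levelOne] at h
    have e1 : Hd j F (fun _ => false)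
        = F (fun _ => false) - F (Function.update (fun _ => false) j true) := by
      show F (fun _ => false) - F (fl j (fun _ => false)) = _
      rw [fl_const]
      rfl
    have e2 : Hd j F (fun _ => true)
        = F (fun _ => true) - F (Function.update (fun _ => true) j false) := by
      show F (fun _ => true) - F (fl j (fun _ => true)) = _
      rw [fl_const]
      rfl
    rw [e1, e2] at h
    have e3 : ∀ i : Fin n, Hd j F (Function.update (fun _ => false) i true)
        = F (Function.update (fun _ => false) i true)
          - F (fl j (Function.update (fun _ => false) i true)) := fun i => rfl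
    have e4 : ∀ i : Fin n, Hd j F (Function.update (fun _ => true) i false)
        = F (Function.update (fun _ => true) i false)
          - F (fl j (Function.update (fun _ => true) i false)) := fun i => rfl
    simp only [e3, e4] at h
    linarith
  have h3 := Finset.sum_congr (rfl : (Finset.univ : Finset (Fin n)) = Finset.univ)
    (fun j _ => h2 j)
  rw [← Finset.mul_sum] at h3
  simp only [Finset.sum_sub_distrib, Finset.sum_const, Finset.card_univ, Fintype.card_fin,
    nsmul_eq_mul, ← Finset.mul_sum] at h1 h3 ⊢
  linear_combination h3 - 2 * h1

lemma mG_levelOne_odd {m : ℕ} (F : (Fin (m + 1) → Bool) → ℝ)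
    (hodd : ∀ S : Finset (Fin (m + 1)), Odd S.card → 4 < S.card → coef F S = 0)
    (j : Fin (m + 1)) (i' : Fin m) :
    8 * ∑ k : Fin m, coef (mG j i' F) {k}
      = (6 - (m : ℝ)) * (F (fun _ => false) - F (fun _ => true))
        + ∑ k : Fin (m + 1), (F (Function.update (fun _ => false) k true)
            - F (Function.update (fun _ => true) k false))
        - (F (Function.update (fun _ => false) j true)
            - F (Function.update (fun _ => true) j false))
        - (F (Function.update (fun _ => false) (j.succAbove i') true)
            - F (Function.update (fun _ => true) (j.succAbove i') false))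
        + (F (fl j (Function.update (fun _ => false) (j.succAbove i') true))
            - F (fl j (Function.update (fun _ => true) (j.succAbove i') false))) := by
  have h := levelOne_identity_odd (mG j i' F) (coef_comp_odd (mphi j i') F hodd)
  have hp := mG_nb_sum j i' F false true
  have hq := mG_nb_sum j i' F true false
  have ep := comp_nb_eq j i' false
  have eq := comp_nb_eq j i' true
  simp only [Bool.not_false, Bool.not_true] at ep eq
  rw [ep] at hp
  rw [eq] at hq
  have e1 : mG j i' F (fun _ => false) = F (fun _ => false) := rfl
  have e2 : mG j i' F (fun _ => true) = F (fun _ => true) := rfl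
  rw [e1, e2] at h
  simp only [Finset.sum_sub_distrib, Finset.sum_const, Finset.card_univ, Fintype.card_fin,
    nsmul_eq_mul] at h
  rw [hp, hq] at h
  rw [Finset.sum_sub_distrib]
  linarith

/-- **Core bound**: a sign-valued function on the cube whose Fourier coefficients of odd order
at least five vanish has `8 ∑_i F^({i}) ≤ 14`. -/
theorem core_odd : ∀ (n : ℕ) (F : (Fin n → Bool) → ℝ), (∀ x, F x = 1 ∨ F x = -1) →
    (∀ S : Finset (Fin n), Odd S.card → 4 < S.card → coef F S = 0) →
    8 * ∑ i : Fin n, coef F {i} ≤ 14 := by
  intro n
  induction n with
  | zero =>
    intro F _ _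
    simp
  | succ m ih =>
    intro F hF hodd
    have h1 := levelOne_identity_odd F hodd
    have hpair := pair_identity_odd F hodd
    apply arith_core m (F (fun _ => false)) (F (fun _ => true))
      (fun i => F (Function.update (fun _ => false) i true))
      (fun i => F (Function.update (fun _ => true) i false))
      (fun j i => F (fl j (Function.update (fun _ => false) i true)))
      (fun j i => F (fl j (Function.update (fun _ => true) i false)))
      (8 * ∑ i : Fin (m + 1), coef F {i}) (hF _) (hF _) (fun i => hF _) (fun i => hF _)
      (fun j i => hF _) (fun j i => hF _)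
    · intro j
      exact congrArg F (fl_update_self j false)
    · intro j
      exact congrArg F (fl_update_self j true)
    · simp only [Finset.sum_sub_distrib, Finset.sum_const, Finset.card_univ, Fintype.card_fin,
        nsmul_eq_mul] at h1 ⊢
      push_cast at h1
      linarith
    · rw [hpair]
      push_cast
      ring
    · intro j i'
      have h := ih (mG j i' F) (fun y => hF _) (coef_comp_odd (mphi j i') F hodd)
      rw [mG_levelOne_odd F hodd j i'] at h
      exact h

/-- **The sharp level-one bound when the odd part has degree at most three**: a Boolean function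
on the cube whose Fourier coefficients of odd order at least five vanish has
`∑_i |f^({i})| ≤ 7/4`. -/
theorem sum_abs_fhat_le_seven_quarters_odd {n : ℕ} (f : (Fin n → Bool) → Bool)
    (hodd : ∀ S : Finset (Fin n), Odd S.card → 4 < S.card → fhat f S = 0) :
    ∑ i : Fin n, |fhat f {i}| ≤ 7 / 4 := by
  classical
  set z : Fin n → Bool := fun i => decide (fhat f {i} < 0) with hz
  set G : (Fin n → Bool) → ℝ := fun x => bsign (f (flipCube z x)) with hG
  have hGval : ∀ x, G x = 1 ∨ G x = -1 := by
    intro x
    simp only [hG]
    cases f (flipCube z x) <;> simp
  have hGcoef : ∀ S : Finset (Fin n), coef G S = (∏ i ∈ S, bsign (z i)) * fhat f S := by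
    intro S
    rw [fhat_eq_coef]
    exact coef_flip (fun x => bsign (f x)) z S
  have hGodd : ∀ S : Finset (Fin n), Odd S.card → 4 < S.card → coef G S = 0 := by
    intro S ho hS
    rw [hGcoef, hodd S ho hS, mul_zero]
  have hsum : ∑ i : Fin n, |fhat f {i}| = ∑ i : Fin n, coef G {i} := by
    apply Finset.sum_congr rfl
    intro i _
    rw [hGcoef, Finset.prod_singleton]
    by_cases h : fhat f {i} < 0
    · have hzi : z i = true := by simp [hz, h]
      rw [hzi, abs_of_neg h]
      simp
    · have hzi : z i = false := by simp [hz, h]
      rw [hzi, abs_of_nonneg (not_lt.mp h)]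
      simp
  rw [hsum]
  have hcore := core_odd n G hGval hGodd
  linarith

end Vale.Agent.H26.D4
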