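import Vale.Agent.H39.D4.Identity

/-!
# A second identity for functions of degree at most four on the cube (seat H26)

Notation of `Vale.Agent.H39`: points of the cube are `x : Fin n → Bool` (`true` is the sign `-1`),
`coef F S` is the Fourier coefficient.  `fl j x` flips the coordinate `j` of `x`.  Applying the
level-one identity of `Vale.Agent.H39.levelOne_identity` to the functions `x ↦ F x - F (fl j x)`
and summing over `j` gives `pair_identity`, which expresses the sum of `F` over the points at
distance two from the two constant points by the values at distance at most one.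
-/

namespace Vale.Agent.H26.D4

open Finset Vale.Agent.H39

variable {n : ℕ}

/-- The indicator vector of the coordinate `j`. -/
def ej (j : Fin n) : Fin n → Bool := fun k => decide (k = j)

/-- Flip the coordinate `j` of the point `x`. -/
def fl (j : Fin n) (x : Fin n → Bool) : Fin n → Bool := flipCube (ej j) x

lemma fl_apply_self (j : Fin n) (x : Fin n → Bool) : fl j x j = !(x j) := by
  simp [fl, flipCube, ej]

lemma fl_apply_ne (j : Fin n) (x : Fin n → Bool) {k : Fin n} (h : k ≠ j) : fl j x k = x k := by
  simp [fl, flipCube, ej, h]

lemma fl_const (j : Fin n) (b : Bool) :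
    fl j (fun _ => b) = Function.update (fun _ => b) j (!b) := by
  funext k
  by_cases h : k = j
  · subst h
    rw [fl_apply_self, Function.update_self]
  · rw [fl_apply_ne j _ h, Function.update_of_ne h]

lemma fl_update_self (j : Fin n) (b : Bool) :
    fl j (Function.update (fun _ => b) j (!b)) = fun _ => b := by
  funext k
  by_cases h : k = j
  · subst h
    rw [fl_apply_self, Function.update_self, Bool.not_not]
  · rw [fl_apply_ne j _ h, Function.update_of_ne h]

lemma coef_sub (F G : (Fin n → Bool) → ℝ) (S : Finset (Fin n)) :
    coef (fun x => F x - G x) S = coef F S - coef G S := by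
  unfold coef
  rw [← sub_div, ← Finset.sum_sub_distrib]
  congr 1
  apply Finset.sum_congr rfl
  intro x _
  ring

lemma prod_bsign_ej (j : Fin n) (S : Finset (Fin n)) :
    ∏ i ∈ S, bsign (ej j i) = if j ∈ S then -1 else 1 := by
  have h : ∀ i : Fin n, bsign (ej j i) = if i = j then (-1 : ℝ) else 1 := by
    intro i
    by_cases hi : i = j <;> simp [ej, bsign, hi]
  simp_rw [h]
  rw [Finset.prod_ite_eq' S j (fun _ => (-1 : ℝ))]

/-- The difference of `F` and its flip in the coordinate `j`. -/
noncomputable def Hd (j : Fin n) (F : (Fin n → Bool) → ℝ) : (Fin n → Bool) → ℝ :=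
  fun x => F x - F (fl j x)

lemma coef_Hd (j : Fin n) (F : (Fin n → Bool) → ℝ) (S : Finset (Fin n)) :
    coef (Hd j F) S = (1 - (if j ∈ S then (-1 : ℝ) else 1)) * coef F S := by
  have h1 : coef (Hd j F) S = coef F S - coef (fun x => F (flipCube (ej j) x)) S :=
    coef_sub F (fun x => F (flipCube (ej j) x)) S
  rw [h1, coef_flip, prod_bsign_ej]
  ring

lemma Hd_deg (j : Fin n) {F : (Fin n → Bool) → ℝ}
    (hdeg : ∀ S : Finset (Fin n), 4 < S.card → coef F S = 0) :
    ∀ S : Finset (Fin n), 4 < S.card → coef (Hd j F) S = 0 := by
  intro S hS
  rw [coef_Hd, hdeg S hS, mul_zero]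

lemma Hd_levelOne (j : Fin n) (F : (Fin n → Bool) → ℝ) :
    ∑ i : Fin n, coef (Hd j F) {i} = 2 * coef F {j} := by
  have h : ∀ i : Fin n, coef (Hd j F) {i} = if i = j then 2 * coef F {j} else 0 := by
    intro i
    rw [coef_Hd]
    by_cases hi : i = j
    · subst hi
      rw [if_pos (Finset.mem_singleton_self i), if_pos rfl]
      ring
    · have : j ∉ ({i} : Finset (Fin n)) := by
        rw [Finset.mem_singleton]
        exact fun h => hi h.symm
      rw [if_neg this, if_neg hi]
      ring
  simp_rw [h]
  rw [Finset.sum_ite_eq' Finset.univ j (fun _ => 2 * coef F {j})]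
  simp

/-- **Pair identity in degree at most four.** -/
theorem pair_identity (F : (Fin n → Bool) → ℝ)
    (hdeg : ∀ S : Finset (Fin n), 4 < S.card → coef F S = 0) :
    ∑ j : Fin n, ∑ i : Fin n,
        (F (fl j (Function.update (fun _ => false) i true))
          - F (fl j (Function.update (fun _ => true) i false)))
      = (2 * (n : ℝ) - 8) * ∑ i : Fin n,
          (F (Function.update (fun _ => false) i true) - F (Function.update (fun _ => true) i false))
        - ((n : ℝ) ^ 2 - 8 * n + 12) * (F (fun _ => false) - F (fun _ => true)) := by
  have h1 := levelOne_identity F hdeg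
  have h2 : ∀ j : Fin n, 16 * coef F {j}
      = 6 * ((F (fun _ => false) - F (Function.update (fun _ => false) j true))
            - (F (fun _ => true) - F (Function.update (fun _ => true) j false)))
        - ∑ i : Fin n, ((F (fun _ => false) - F (Function.update (fun _ => false) j true))
            - (F (Function.update (fun _ => false) i true)
                - F (fl j (Function.update (fun _ => false) i true))))
        - ∑ i : Fin n, ((F (Function.update (fun _ => true) i false)
                - F (fl j (Function.update (fun _ => true) i false)))
            - (F (fun _ => true) - F (Function.update (fun _ => true) j false))) := by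
    intro j
    have h := levelOne_identity (Hd j F) (Hd_deg j hdeg)
    rw [Hd_levelOne] at h
    have e1 : Hd j F (fun _ => false)
        = F (fun _ => false) - F (Function.update (fun _ => false) j true) := by
      show F (fun _ => false) - F (fl j (fun _ => false)) = _
      rw [fl_const]
      rfl
    have e2 : Hd j F (fun _ => true)
        = F (fun _ => true) - F (Function.update (fun _ => true) j false) := by
      show F (fun _ => true) - F (fl j (fun _ => true)) = _
      rw [fl_const]
      rfl
    rw [e1, e2] at h
    have e3 : ∀ i : Fin n, Hd j F (Function.update (fun _ => false) i true)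
        = F (Function.update (fun _ => false) i true)
          - F (fl j (Function.update (fun _ => false) i true)) := fun i => rfl
    have e4 : ∀ i : Fin n, Hd j F (Function.update (fun _ => true) i false)
        = F (Function.update (fun _ => true) i false)
          - F (fl j (Function.update (fun _ => true) i false)) := fun i => rfl
    simp only [e3, e4] at h
    linarith
  have h3 := Finset.sum_congr (rfl : (Finset.univ : Finset (Fin n)) = Finset.univ)
    (fun j _ => h2 j)
  rw [← Finset.mul_sum] at h3
  simp only [Finset.sum_sub_distrib, Finset.sum_const, Finset.card_univ, Fintype.card_fin,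
    nsmul_eq_mul, ← Finset.mul_sum] at h1 h3 ⊢
  linear_combination h3 - 2 * h1

end Vale.Agent.H26.D4
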