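import Vale.Agent.H26.D4Pair
import Vale.Agent.H39.D4.Merge
import Vale.Agent.H13.GSSeven

/-!
# The sharp level-one bound in degree four (seat H26)

Every Boolean function of degree at most `4` on the cube has level-one sum at most `7/4`, and
`7/4` is attained (by the seven-variable function of `Vale.Agent.H13.GSSeven`).

Notation of `Vale.Agent.H39`.  For a sign-valued `F` of degree at most `4` on `n` variables put
`X = 8 ∑_i F^({i})`, `c = F(+) - F(-)`, `D = ∑_i (F(+ⁱ) - F(-ⁱ))` (`+ⁱ`, `-ⁱ` the neighbours of the
two constant points).  Then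

* `X = (6 - n) c + D` (`levelOne_identity`, seat H39), so `X` is an even integer;
* `∑_{j,i} (F(fl j +ⁱ) - F(fl j -ⁱ)) = (2n - 8) D - (n² - 8n + 12) c` (`pair_identity`);
* identifying the variable `j` with another variable `l` gives a function of degree at most `4`
  on `n - 1` variables with `X' = X + c - d_j - d_l + (F(fl j +ˡ) - F(fl j -ˡ))`.

Averaging the third fact over all ordered pairs and using the first two gives
`∑ X' = (n(n-1) - 6) X + 24 c`; an induction on `n` and the parity of `X` give `X ≤ 14`.
-/

namespace Vale.Agent.H26.D4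

open Finset Vale.Agent.H39

/-- The map sending the coordinate `j` to `i'` and `j.succAbove k'` to `k'`. -/
def mphi {m : ℕ} (j : Fin (m + 1)) (i' : Fin m) : Fin (m + 1) → Fin m :=
  Fin.insertNth (α := fun _ => Fin m) j i' (fun k' => k')

lemma mphi_self {m : ℕ} (j : Fin (m + 1)) (i' : Fin m) : mphi j i' j = i' := by
  simp [mphi]

lemma mphi_succAbove {m : ℕ} (j : Fin (m + 1)) (i' k' : Fin m) :
    mphi j i' (j.succAbove k') = k' := by
  simp [mphi]

lemma comp_nb_ne {m : ℕ} (j : Fin (m + 1)) {i' k' : Fin m} (h : k' ≠ i') (b c : Bool) :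
    (fun k => Function.update (fun _ : Fin m => b) k' c (mphi j i' k))
      = Function.update (fun _ : Fin (m + 1) => b) (j.succAbove k') c := by
  funext k
  rcases Fin.eq_self_or_eq_succAbove j k with hk | ⟨z, hk⟩
  · rw [hk, mphi_self, Function.update_of_ne (Ne.symm h),
      Function.update_of_ne (Fin.succAbove_ne _ _).symm]
  · rw [hk, mphi_succAbove]
    by_cases hz : z = k'
    · rw [hz, Function.update_self, Function.update_self]
    · rw [Function.update_of_ne hz,
        Function.update_of_ne (fun h' => hz (Fin.succAbove_right_injective h'))]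

lemma comp_nb_eq {m : ℕ} (j : Fin (m + 1)) (i' : Fin m) (b : Bool) :
    (fun k => Function.update (fun _ : Fin m => b) i' (!b) (mphi j i' k))
      = fl j (Function.update (fun _ : Fin (m + 1) => b) (j.succAbove i') (!b)) := by
  funext k
  rcases Fin.eq_self_or_eq_succAbove j k with hk | ⟨z, hk⟩
  · rw [hk, mphi_self, Function.update_self, fl_apply_self,
      Function.update_of_ne (Fin.succAbove_ne _ _).symm]
  · rw [hk, mphi_succAbove, fl_apply_ne _ _ (Fin.succAbove_ne _ _)]
    by_cases hz : z = i'
    · rw [hz, Function.update_self, Function.update_self]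
    · rw [Function.update_of_ne hz,
        Function.update_of_ne (fun h' => hz (Fin.succAbove_right_injective h'))]

/-- `F` with the coordinate `j` identified with the coordinate `j.succAbove i'`. -/
def mG {m : ℕ} (j : Fin (m + 1)) (i' : Fin m) (F : (Fin (m + 1) → Bool) → ℝ) :
    (Fin m → Bool) → ℝ := fun y => F (fun k => y (mphi j i' k))

lemma mG_nb_sum {m : ℕ} (j : Fin (m + 1)) (i' : Fin m) (F : (Fin (m + 1) → Bool) → ℝ)
    (b c : Bool) :
    ∑ k' : Fin m, mG j i' F (Function.update (fun _ => b) k' c)
      = ∑ k : Fin (m + 1), F (Function.update (fun _ => b) k c)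
        - F (Function.update (fun _ => b) j c)
        - F (Function.update (fun _ => b) (j.succAbove i') c)
        + F (fun k => Function.update (fun _ : Fin m => b) i' c (mphi j i' k)) := by
  have h : ∀ k' : Fin m, mG j i' F (Function.update (fun _ => b) k' c)
      = F (Function.update (fun _ => b) (j.succAbove k') c)
        + (if k' = i' then F (fun k => Function.update (fun _ : Fin m => b) i' c (mphi j i' k))
            - F (Function.update (fun _ => b) (j.succAbove i') c) else 0) := by
    intro k'
    by_cases hk : k' = i'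
    · rw [if_pos hk, hk]
      show F (fun k => Function.update (fun _ : Fin m => b) i' c (mphi j i' k)) = _
      ring
    · rw [if_neg hk, add_zero]
      show F (fun k => Function.update (fun _ : Fin m => b) k' c (mphi j i' k)) = _
      rw [comp_nb_ne j hk]
  rw [Finset.sum_congr rfl (fun k' _ => h k'), Finset.sum_add_distrib,
    Finset.sum_ite_eq' Finset.univ i' _, if_pos (Finset.mem_univ _),
    Fin.sum_univ_succAbove (fun k => F (Function.update (fun _ => b) k c)) j]
  ring

lemma mG_levelOne {m : ℕ} (F : (Fin (m + 1) → Bool) → ℝ)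
    (hdeg : ∀ S : Finset (Fin (m + 1)), 4 < S.card → coef F S = 0) (j : Fin (m + 1))
    (i' : Fin m) :
    8 * ∑ k : Fin m, coef (mG j i' F) {k}
      = (6 - (m : ℝ)) * (F (fun _ => false) - F (fun _ => true))
        + ∑ k : Fin (m + 1), (F (Function.update (fun _ => false) k true)
            - F (Function.update (fun _ => true) k false))
        - (F (Function.update (fun _ => false) j true)
            - F (Function.update (fun _ => true) j false))
        - (F (Function.update (fun _ => false) (j.succAbove i') true)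
            - F (Function.update (fun _ => true) (j.succAbove i') false))
        + (F (fl j (Function.update (fun _ => false) (j.succAbove i') true))
            - F (fl j (Function.update (fun _ => true) (j.succAbove i') false))) := by
  have h := levelOne_identity (mG j i' F) (coef_comp_eq_zero (mphi j i') F 4 hdeg)
  have hp := mG_nb_sum j i' F false true
  have hq := mG_nb_sum j i' F true false
  have ep := comp_nb_eq j i' false
  have eq := comp_nb_eq j i' true
  simp only [Bool.not_false, Bool.not_true] at ep eq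
  rw [ep] at hp
  rw [eq] at hq
  have e1 : mG j i' F (fun _ => false) = F (fun _ => false) := rfl
  have e2 : mG j i' F (fun _ => true) = F (fun _ => true) := rfl
  rw [e1, e2] at h
  simp only [Finset.sum_sub_distrib, Finset.sum_const, Finset.card_univ, Fintype.card_fin,
    nsmul_eq_mul] at h
  rw [hp, hq] at h
  rw [Finset.sum_sub_distrib]
  linarith

/-- The arithmetic heart of the induction step. -/
lemma arith_core (m : ℕ) (a b : ℝ) (P Q : Fin (m + 1) → ℝ) (TP TM : Fin (m + 1) → Fin (m + 1) → ℝ)
    (X : ℝ) (ha : a = 1 ∨ a = -1) (hb : b = 1 ∨ b = -1)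
    (hP : ∀ i, P i = 1 ∨ P i = -1) (hQ : ∀ i, Q i = 1 ∨ Q i = -1)
    (hTP : ∀ j i, TP j i = 1 ∨ TP j i = -1) (hTM : ∀ j i, TM j i = 1 ∨ TM j i = -1)
    (hdiagP : ∀ j, TP j j = a) (hdiagM : ∀ j, TM j j = b)
    (hX : X = (5 - (m : ℝ)) * (a - b) + ∑ i, (P i - Q i))
    (hpair : ∑ j, ∑ i, (TP j i - TM j i)
      = (2 * (m : ℝ) - 6) * ∑ i, (P i - Q i) - ((m : ℝ) ^ 2 - 6 * m + 5) * (a - b))
    (hmerge : ∀ (j : Fin (m + 1)) (i' : Fin m),
      (6 - (m : ℝ)) * (a - b) + ∑ i, (P i - Q i) - (P j - Q j)
        - (P (j.succAbove i') - Q (j.succAbove i'))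
        + (TP j (j.succAbove i') - TM j (j.succAbove i')) ≤ 14) :
    X ≤ 14 := by
  obtain ⟨D, hD⟩ : ∃ D : ℝ, D = ∑ i, (P i - Q i) := ⟨_, rfl⟩
  obtain ⟨TT, hTT⟩ : ∃ TT : ℝ, TT = ∑ j, ∑ i, (TP j i - TM j i) := ⟨_, rfl⟩
  rw [← hD] at hX hpair
  rw [← hTT] at hpair
  -- parity
  have hpar : ∃ k : ℤ, X = 2 * (k : ℝ) := by
    have hv : ∀ v : ℝ, (v = 1 ∨ v = -1) → ∃ t : ℤ, v = 2 * (t : ℝ) - 1 := by
      rintro v (rfl | rfl)
      · exact ⟨1, by norm_num⟩
      · exact ⟨0, by norm_num⟩
    obtain ⟨ta, hta⟩ := hv a ha
    obtain ⟨tb, htb⟩ := hv b hb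
    choose tp htp using fun i => hv (P i) (hP i)
    choose tq htq using fun i => hv (Q i) (hQ i)
    refine ⟨(5 - (m : ℤ)) * (ta - tb) + ∑ i, (tp i - tq i), ?_⟩
    have hDt : D = 2 * ∑ i, ((tp i : ℝ) - (tq i : ℝ)) := by
      rw [hD, Finset.mul_sum]
      exact Finset.sum_congr rfl (fun i _ => by rw [htp i, htq i]; ring)
    rw [hX, hDt, hta, htb]
    push_cast
    ring
  -- elementary bounds
  have hc3 : a - b = 2 ∨ a - b = 0 ∨ a - b = -2 := by
    rcases ha with h | h <;> rcases hb with h' | h' <;> rw [h, h'] <;> norm_num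
  have hd : ∀ i, P i - Q i ≤ 2 := by
    intro i
    rcases hP i with h | h <;> rcases hQ i with h' | h' <;> rw [h, h'] <;> norm_num
  have htt : ∀ j i, TP j i - TM j i ≤ 2 := by
    intro j i
    rcases hTP j i with h | h <;> rcases hTM j i with h' | h' <;> rw [h, h'] <;> norm_num
  have hDle : D ≤ 2 * ((m : ℝ) + 1) := by
    rw [hD]
    calc ∑ i, (P i - Q i) ≤ ∑ _i : Fin (m + 1), (2 : ℝ) := Finset.sum_le_sum (fun i _ => hd i)
      _ = 2 * ((m : ℝ) + 1) := by
        rw [Finset.sum_const, Finset.card_univ, Fintype.card_fin, nsmul_eq_mul]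
        push_cast
        ring
  have hrow : ∀ j : Fin (m + 1), ∑ l, (TP j l - TM j l)
      = (a - b) + ∑ i' : Fin m, (TP j (j.succAbove i') - TM j (j.succAbove i')) := by
    intro j
    rw [Fin.sum_univ_succAbove (fun l => TP j l - TM j l) j, hdiagP, hdiagM]
  have hTTle : TT ≤ ((m : ℝ) + 1) * ((a - b) + 2 * m) := by
    rw [hTT]
    calc ∑ j, ∑ l, (TP j l - TM j l) ≤ ∑ _j : Fin (m + 1), ((a - b) + 2 * (m : ℝ)) := by
          apply Finset.sum_le_sum
          intro j _
          rw [hrow j]
          have h2 : ∑ i' : Fin m, (TP j (j.succAbove i') - TM j (j.succAbove i'))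
              ≤ ∑ _i' : Fin m, (2 : ℝ) := Finset.sum_le_sum (fun i' _ => htt _ _)
          rw [Finset.sum_const, Finset.card_univ, Fintype.card_fin, nsmul_eq_mul] at h2
          linarith
      _ = ((m : ℝ) + 1) * ((a - b) + 2 * m) := by
        rw [Finset.sum_const, Finset.card_univ, Fintype.card_fin, nsmul_eq_mul]
        push_cast
        ring
  -- averaging the merge inequalities
  have havg : ((m : ℝ) ^ 2 + m - 6) * X + 24 * (a - b) ≤ 14 * ((m : ℝ) * (m + 1)) := by
    have hj : ∀ j : Fin (m + 1), ∑ i' : Fin m, ((6 - (m : ℝ)) * (a - b) + D - (P j - Q j)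
          - (P (j.succAbove i') - Q (j.succAbove i'))
          + (TP j (j.succAbove i') - TM j (j.succAbove i')))
        = (m : ℝ) * ((6 - (m : ℝ)) * (a - b) + D - (P j - Q j)) - (D - (P j - Q j))
          + (∑ l, (TP j l - TM j l) - (a - b)) := by
      intro j
      have e1 : D = (P j - Q j) + ∑ i' : Fin m, (P (j.succAbove i') - Q (j.succAbove i')) := by
        rw [hD, Fin.sum_univ_succAbove (fun l => P l - Q l) j]
      rw [hrow j, Finset.sum_add_distrib, Finset.sum_sub_distrib, Finset.sum_const,
        Finset.card_univ, Fintype.card_fin, nsmul_eq_mul]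
      linarith
    have hs : ∑ j : Fin (m + 1), ((m : ℝ) * ((6 - (m : ℝ)) * (a - b) + D - (P j - Q j))
          - (D - (P j - Q j)) + (∑ l, (TP j l - TM j l) - (a - b)))
        = ((m : ℝ) + 1) * ((m : ℝ) * ((6 - (m : ℝ)) * (a - b) + D) - D - (a - b))
          - ((m : ℝ) - 1) * D + TT := by
      have h3 : ∀ j : Fin (m + 1), ((m : ℝ) * ((6 - (m : ℝ)) * (a - b) + D - (P j - Q j))
            - (D - (P j - Q j)) + (∑ l, (TP j l - TM j l) - (a - b)))
          = ((m : ℝ) * ((6 - (m : ℝ)) * (a - b) + D) - D - (a - b))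
            + (-((m : ℝ) - 1)) * (P j - Q j) + ∑ l, (TP j l - TM j l) := by
        intro j
        ring
      rw [Finset.sum_congr rfl (fun j _ => h3 j), Finset.sum_add_distrib, Finset.sum_add_distrib,
        Finset.sum_const, Finset.card_univ, Fintype.card_fin, nsmul_eq_mul, ← Finset.mul_sum,
        ← hD, ← hTT]
      push_cast
      ring
    have hsum : ∑ j : Fin (m + 1), ∑ i' : Fin m, ((6 - (m : ℝ)) * (a - b) + D - (P j - Q j)
          - (P (j.succAbove i') - Q (j.succAbove i'))
          + (TP j (j.succAbove i') - TM j (j.succAbove i')))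
        ≤ ∑ _j : Fin (m + 1), ∑ _i' : Fin m, (14 : ℝ) := by
      apply Finset.sum_le_sum
      intro j _
      apply Finset.sum_le_sum
      intro i' _
      have := hmerge j i'
      rw [← hD] at this
      exact this
    rw [Finset.sum_congr rfl (fun j _ => hj j), hs] at hsum
    simp only [Finset.sum_const, Finset.card_univ, Fintype.card_fin, nsmul_eq_mul] at hsum
    push_cast at hsum
    rw [hpair] at hsum
    rw [hX]
    linarith
  -- conclusion
  obtain ⟨k, hk⟩ := hpar
  have hfin : X < 16 → X ≤ 14 := by
    intro h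
    have h1 : (k : ℝ) < 8 := by
      rw [hk] at h
      linarith
    have h2 : k < 8 := by exact_mod_cast h1
    have h3 : k ≤ 7 := by omega
    have h4 : (k : ℝ) ≤ 7 := by exact_mod_cast h3
    rw [hk]
    linarith
  have hm0 : (0 : ℝ) ≤ m := Nat.cast_nonneg m
  rcases hc3 with hc | hc | hc
  · rw [hc] at hX
    linarith
  · rw [hc] at hX havg
    by_cases hm : m ≤ 6
    · have hm' : (m : ℝ) ≤ 6 := by exact_mod_cast hm
      linarith
    · push Not at hm
      have hm' : (7 : ℝ) ≤ m := by exact_mod_cast hm
      apply hfin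
      by_contra hge
      push Not at hge
      have hq : (0 : ℝ) ≤ (m : ℝ) ^ 2 + m - 6 := by nlinarith
      have := mul_le_mul_of_nonneg_left hge hq
      nlinarith
  · rw [hc] at hX havg hpair hTTle
    by_cases hm : m ≤ 5
    · have hm' : (m : ℝ) ≤ 5 := by exact_mod_cast hm
      linarith
    · push Not at hm
      by_cases hm9 : 9 ≤ m
      · have hm' : (9 : ℝ) ≤ m := by exact_mod_cast hm9
        apply hfin
        by_contra hge
        push Not at hge
        have hq : (0 : ℝ) ≤ (m : ℝ) ^ 2 + m - 6 := by nlinarith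
        have := mul_le_mul_of_nonneg_left hge hq
        nlinarith
      · push Not at hm9
        apply hfin
        interval_cases m
        · norm_num at hX hpair hTTle
          linarith
        · norm_num at hX hpair hTTle
          linarith
        · norm_num at hX hpair hTTle
          linarith

/-- **Core bound**: a sign-valued function of degree at most `4` on the cube has
`8 ∑_i F^({i}) ≤ 14`. -/
theorem core : ∀ (n : ℕ) (F : (Fin n → Bool) → ℝ), (∀ x, F x = 1 ∨ F x = -1) →
    (∀ S : Finset (Fin n), 4 < S.card → coef F S = 0) →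
    8 * ∑ i : Fin n, coef F {i} ≤ 14 := by
  intro n
  induction n with
  | zero =>
    intro F _ _
    simp
  | succ m ih =>
    intro F hF hdeg
    have h1 := levelOne_identity F hdeg
    have hpair := pair_identity F hdeg
    apply arith_core m (F (fun _ => false)) (F (fun _ => true))
      (fun i => F (Function.update (fun _ => false) i true))
      (fun i => F (Function.update (fun _ => true) i false))
      (fun j i => F (fl j (Function.update (fun _ => false) i true)))
      (fun j i => F (fl j (Function.update (fun _ => true) i false)))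
      (8 * ∑ i : Fin (m + 1), coef F {i}) (hF _) (hF _) (fun i => hF _) (fun i => hF _)
      (fun j i => hF _) (fun j i => hF _)
    · intro j
      exact congrArg F (fl_update_self j false)
    · intro j
      exact congrArg F (fl_update_self j true)
    · simp only [Finset.sum_sub_distrib, Finset.sum_const, Finset.card_univ, Fintype.card_fin,
        nsmul_eq_mul] at h1 ⊢
      push_cast at h1
      linarith
    · rw [hpair]
      push_cast
      ring
    · intro j i'
      have h := ih (mG j i' F) (fun y => hF _) (coef_comp_eq_zero (mphi j i') F 4 hdeg)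
      rw [mG_levelOne F hdeg j i'] at h
      exact h

/-- **The sharp level-one bound in degree four**: a Boolean function on the cube whose Fourier
coefficients vanish above level `4` has `∑_i |f^({i})| ≤ 7/4`. -/
theorem sum_abs_fhat_le_seven_quarters {n : ℕ} (f : (Fin n → Bool) → Bool)
    (hdeg : ∀ S : Finset (Fin n), 4 < S.card → fhat f S = 0) :
    ∑ i : Fin n, |fhat f {i}| ≤ 7 / 4 := by
  classical
  set z : Fin n → Bool := fun i => decide (fhat f {i} < 0) with hz
  set G : (Fin n → Bool) → ℝ := fun x => bsign (f (flipCube z x)) with hG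
  have hGval : ∀ x, G x = 1 ∨ G x = -1 := by
    intro x
    simp only [hG]
    cases f (flipCube z x) <;> simp
  have hGcoef : ∀ S : Finset (Fin n), coef G S = (∏ i ∈ S, bsign (z i)) * fhat f S := by
    intro S
    rw [fhat_eq_coef]
    exact coef_flip (fun x => bsign (f x)) z S
  have hGdeg : ∀ S : Finset (Fin n), 4 < S.card → coef G S = 0 := by
    intro S hS
    rw [hGcoef, hdeg S hS, mul_zero]
  have hsum : ∑ i : Fin n, |fhat f {i}| = ∑ i : Fin n, coef G {i} := by
    apply Finset.sum_congr rfl
    intro i _
    rw [hGcoef, Finset.prod_singleton]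
    by_cases h : fhat f {i} < 0
    · have hzi : z i = true := by simp [hz, h]
      rw [hzi, abs_of_neg h]
      simp
    · have hzi : z i = false := by simp [hz, h]
      rw [hzi, abs_of_nonneg (not_lt.mp h)]
      simp
  rw [hsum]
  have hcore := core n G hGval hGdeg
  linarith

/-- **Sharpness**: a Boolean function of seven variables and degree at most `4` all of whose
level-one coefficients equal `1/4`, so that its level-one sum is `7/4`. -/
theorem exists_seven_quarters :
    ∃ f : (Fin 7 → Bool) → Bool, (∀ S : Finset (Fin 7), 4 < S.card → fhat f S = 0) ∧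
      (∀ i : Fin 7, fhat f {i} = 1 / 4) ∧ ∑ i : Fin 7, fhat f {i} = 7 / 4 := by
  classical
  have hb : ∀ x : Fin 7 → Bool,
      bsign (decide (Vale.Agent.H13.GS.f7 x = -1)) = Vale.Agent.H13.GS.f7 x := by
    intro x
    rcases Vale.Agent.H13.GS.f7_bool x with h | h
    · rw [h]
      norm_num [bsign]
    · rw [h]
      simp [bsign]
  have hf : ∀ S : Finset (Fin 7),
      fhat (fun x => decide (Vale.Agent.H13.GS.f7 x = -1)) S
        = (∑ x : Fin 7 → Bool, Vale.Agent.H13.GS.f7 x * Vale.Agent.H13.GS.chi S x) / 2 ^ 7 := by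
    intro S
    unfold fhat
    congr 1
    apply Finset.sum_congr rfl
    intro x _
    rw [hb x]
    rfl
  have h1 : ∀ i : Fin 7, fhat (fun x => decide (Vale.Agent.H13.GS.f7 x = -1)) {i} = 1 / 4 := by
    intro i
    rw [hf, show ∑ x : Fin 7 → Bool, Vale.Agent.H13.GS.f7 x * Vale.Agent.H13.GS.chi {i} x
        = ∑ x : Fin 7 → Bool, Vale.Agent.H13.GS.f7 x * Vale.Agent.H13.GS.sgn (x i) from
      Finset.sum_congr rfl (fun x _ => by rw [Vale.Agent.H13.GS.chi_singleton]),
      Vale.Agent.H13.GS.f7_level_one]
    norm_num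
  refine ⟨fun x => decide (Vale.Agent.H13.GS.f7 x = -1), ?_, h1, ?_⟩
  · intro S hS
    rw [hf, Vale.Agent.H13.GS.f7_deg S hS, zero_div]
  · rw [Finset.sum_congr rfl (fun i _ => by rw [h1 i])]
    rw [Finset.sum_const, Finset.card_univ, Fintype.card_fin, nsmul_eq_mul]
    norm_num

end Vale.Agent.H26.D4
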