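import Vale.Agent.H13.GSBasic

/-!
# An odd degree-5 Boolean function on nine variables with level-one sum 2

The function is given by its Fourier expansion (coefficients in units of 1/16); Boolean-valuedness
is checked by kernel evaluation of an integer polynomial on the 512 points of the cube.
-/

namespace Vale.Agent.H26.GS

open Finset Vale.Agent.H13.GS

/-- the sets carrying Fourier coefficient `-2/16` -/
def NM2 : List (Finset (Fin 9)) :=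
  [{0, 2, 3}, {1, 4, 7}, {0, 5, 8}, {0, 1, 4, 5, 6}, {1, 4, 5, 7, 8}]

/-- the sets carrying Fourier coefficient `-1/16` -/
def NM1 : List (Finset (Fin 9)) :=
  [{0, 1, 2}, {0, 1, 3}, {1, 2, 3}, {0, 1, 4}, {0, 3, 4}, {1, 3, 4}, {0, 2, 5}, {1, 3, 5},
   {2, 4, 5}, {3, 4, 5}, {0, 1, 6}, {1, 3, 6}, {0, 4, 6}, {3, 4, 6}, {1, 5, 6}, {2, 5, 6},
   {0, 1, 7}, {2, 4, 7}, {3, 5, 7}, {0, 6, 7}, {2, 6, 7}, {3, 6, 7}, {4, 6, 7}, {5, 6, 7},
   {1, 3, 8}, {2, 4, 8}, {3, 4, 8}, {1, 5, 8}, {2, 5, 8}, {2, 6, 8}, {4, 6, 8}, {0, 7, 8},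
   {2, 7, 8}, {0, 1, 2, 3, 5}, {1, 2, 3, 4, 6}, {2, 3, 4, 5, 6}, {0, 1, 3, 4, 7}, {0, 2, 3, 4, 7},
   {0, 1, 2, 5, 7}, {0, 2, 3, 6, 7}, {1, 2, 5, 6, 7}, {0, 3, 5, 6, 7}, {1, 3, 5, 6, 7},
   {0, 1, 2, 3, 8}, {0, 1, 2, 4, 8}, {0, 1, 4, 5, 8}, {0, 3, 4, 5, 8}, {0, 3, 4, 6, 8},
   {0, 3, 5, 6, 8}, {1, 3, 5, 6, 8}, {0, 1, 3, 7, 8}, {0, 3, 4, 7, 8}, {2, 3, 5, 7, 8},
   {0, 1, 6, 7, 8}, {1, 3, 6, 7, 8}, {4, 5, 6, 7, 8}]

/-- the sets carrying Fourier coefficient `1/16` -/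
def NP1 : List (Finset (Fin 9)) :=
  [{2, 3, 4}, {0, 1, 5}, {0, 2, 6}, {3, 5, 6}, {0, 2, 7}, {1, 6, 7}, {0, 4, 8}, {0, 1, 3, 4, 5},
   {0, 1, 2, 3, 6}, {0, 1, 2, 5, 6}, {1, 2, 3, 5, 6}, {0, 2, 4, 5, 6}, {1, 3, 4, 5, 6},
   {0, 2, 3, 5, 7}, {1, 2, 4, 5, 7}, {0, 2, 4, 6, 7}, {1, 2, 4, 6, 7}, {0, 3, 4, 6, 7},
   {2, 3, 4, 6, 7}, {0, 1, 5, 6, 7}, {1, 4, 5, 6, 7}, {0, 1, 3, 4, 8}, {0, 1, 2, 5, 8},
   {0, 2, 4, 5, 8}, {1, 2, 4, 5, 8}, {2, 3, 4, 5, 8}, {0, 1, 3, 6, 8}, {1, 2, 3, 6, 8},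
   {2, 3, 4, 6, 8}, {1, 2, 5, 6, 8}, {0, 4, 5, 6, 8}, {0, 1, 2, 7, 8}, {0, 2, 3, 7, 8},
   {0, 1, 4, 7, 8}, {1, 3, 4, 7, 8}, {1, 2, 5, 7, 8}, {1, 3, 5, 7, 8}, {2, 4, 5, 7, 8},
   {0, 3, 6, 7, 8}, {2, 4, 6, 7, 8}, {2, 5, 6, 7, 8}]

/-- the sets carrying Fourier coefficient `2/16` -/
def NP2 : List (Finset (Fin 9)) :=
  [{0, 1, 2, 3, 7}, {2, 3, 5, 6, 7}, {0, 2, 3, 5, 8}]

/-- the sets carrying Fourier coefficient `3/16` -/
def NP3 : List (Finset (Fin 9)) :=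
  [{0}, {5}, {6}, {7}, {8}, {0, 1, 2, 3, 4}]

/-- the sets carrying Fourier coefficient `4/16` -/
def NP4 : List (Finset (Fin 9)) :=
  [{1}, {3}, {4}]

/-- the sets carrying Fourier coefficient `5/16` -/
def NP5 : List (Finset (Fin 9)) :=
  [{2}]

/-- the nine-variable function, given by its Fourier expansion -/
noncomputable def g9 (x : Fin 9 → Bool) : ℝ :=
  ((-2 : ℝ) * (NM2.map (fun T => chi T x)).sum + (-1 : ℝ) * (NM1.map (fun T => chi T x)).sum + (1 : ℝ) * (NP1.map (fun T => chi T x)).sum + (2 : ℝ) * (NP2.map (fun T => chi T x)).sum + (3 : ℝ) * (NP3.map (fun T => chi T x)).sum + (4 : ℝ) * (NP4.map (fun T => chi T x)).sum + (5 : ℝ) * (NP5.map (fun T => chi T x)).sum) / 16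

/-- integer sign of a Boolean coordinate -/
def sgnZ (b : Bool) : ℤ := if b then -1 else 1

lemma sgnZ_cast (b : Bool) : ((sgnZ b : ℤ) : ℝ) = sgn b := by cases b <;> simp [sgnZ, sgn]

/-- `16 * g9` as an integer polynomial in the nine signs -/
def poly9 (s0 s1 s2 s3 s4 s5 s6 s7 s8 : ℤ) : ℤ :=
  -2 * (s0 * s2 * s3
    + s1 * s4 * s7
    + s0 * s5 * s8
    + s0 * s1 * s4 * s5 * s6
    + s1 * s4 * s5 * s7 * s8)
    + -1 * (s0 * s1 * s2
    + s0 * s1 * s3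
    + s1 * s2 * s3
    + s0 * s1 * s4
    + s0 * s3 * s4
    + s1 * s3 * s4
    + s0 * s2 * s5
    + s1 * s3 * s5
    + s2 * s4 * s5
    + s3 * s4 * s5
    + s0 * s1 * s6
    + s1 * s3 * s6
    + s0 * s4 * s6
    + s3 * s4 * s6
    + s1 * s5 * s6
    + s2 * s5 * s6
    + s0 * s1 * s7
    + s2 * s4 * s7
    + s3 * s5 * s7
    + s0 * s6 * s7
    + s2 * s6 * s7
    + s3 * s6 * s7
    + s4 * s6 * s7
    + s5 * s6 * s7
    + s1 * s3 * s8
    + s2 * s4 * s8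
    + s3 * s4 * s8
    + s1 * s5 * s8
    + s2 * s5 * s8
    + s2 * s6 * s8
    + s4 * s6 * s8
    + s0 * s7 * s8
    + s2 * s7 * s8
    + s0 * s1 * s2 * s3 * s5
    + s1 * s2 * s3 * s4 * s6
    + s2 * s3 * s4 * s5 * s6
    + s0 * s1 * s3 * s4 * s7
    + s0 * s2 * s3 * s4 * s7
    + s0 * s1 * s2 * s5 * s7
    + s0 * s2 * s3 * s6 * s7
    + s1 * s2 * s5 * s6 * s7
    + s0 * s3 * s5 * s6 * s7
    + s1 * s3 * s5 * s6 * s7
    + s0 * s1 * s2 * s3 * s8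
    + s0 * s1 * s2 * s4 * s8
    + s0 * s1 * s4 * s5 * s8
    + s0 * s3 * s4 * s5 * s8
    + s0 * s3 * s4 * s6 * s8
    + s0 * s3 * s5 * s6 * s8
    + s1 * s3 * s5 * s6 * s8
    + s0 * s1 * s3 * s7 * s8
    + s0 * s3 * s4 * s7 * s8
    + s2 * s3 * s5 * s7 * s8
    + s0 * s1 * s6 * s7 * s8
    + s1 * s3 * s6 * s7 * s8
    + s4 * s5 * s6 * s7 * s8)
    + 1 * (s2 * s3 * s4
    + s0 * s1 * s5
    + s0 * s2 * s6
    + s3 * s5 * s6
    + s0 * s2 * s7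
    + s1 * s6 * s7
    + s0 * s4 * s8
    + s0 * s1 * s3 * s4 * s5
    + s0 * s1 * s2 * s3 * s6
    + s0 * s1 * s2 * s5 * s6
    + s1 * s2 * s3 * s5 * s6
    + s0 * s2 * s4 * s5 * s6
    + s1 * s3 * s4 * s5 * s6
    + s0 * s2 * s3 * s5 * s7
    + s1 * s2 * s4 * s5 * s7
    + s0 * s2 * s4 * s6 * s7
    + s1 * s2 * s4 * s6 * s7
    + s0 * s3 * s4 * s6 * s7
    + s2 * s3 * s4 * s6 * s7
    + s0 * s1 * s5 * s6 * s7
    + s1 * s4 * s5 * s6 * s7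
    + s0 * s1 * s3 * s4 * s8
    + s0 * s1 * s2 * s5 * s8
    + s0 * s2 * s4 * s5 * s8
    + s1 * s2 * s4 * s5 * s8
    + s2 * s3 * s4 * s5 * s8
    + s0 * s1 * s3 * s6 * s8
    + s1 * s2 * s3 * s6 * s8
    + s2 * s3 * s4 * s6 * s8
    + s1 * s2 * s5 * s6 * s8
    + s0 * s4 * s5 * s6 * s8
    + s0 * s1 * s2 * s7 * s8
    + s0 * s2 * s3 * s7 * s8
    + s0 * s1 * s4 * s7 * s8
    + s1 * s3 * s4 * s7 * s8
    + s1 * s2 * s5 * s7 * s8
    + s1 * s3 * s5 * s7 * s8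
    + s2 * s4 * s5 * s7 * s8
    + s0 * s3 * s6 * s7 * s8
    + s2 * s4 * s6 * s7 * s8
    + s2 * s5 * s6 * s7 * s8)
    + 2 * (s0 * s1 * s2 * s3 * s7
    + s2 * s3 * s5 * s6 * s7
    + s0 * s2 * s3 * s5 * s8)
    + 3 * (s0
    + s5
    + s6
    + s7
    + s8
    + s0 * s1 * s2 * s3 * s4)
    + 4 * (s1
    + s3
    + s4)
    + 5 * (s2)

set_option maxRecDepth 1000000 in
/-- `16 * g9` takes only the values `16` and `-16` (checked on all 512 points) -/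
lemma poly9_bool : ∀ b0 b1 b2 b3 b4 b5 b6 b7 b8 : Bool,
    poly9 (sgnZ b0) (sgnZ b1) (sgnZ b2) (sgnZ b3) (sgnZ b4) (sgnZ b5) (sgnZ b6) (sgnZ b7) (sgnZ b8)
        = 16 ∨
    poly9 (sgnZ b0) (sgnZ b1) (sgnZ b2) (sgnZ b3) (sgnZ b4) (sgnZ b5) (sgnZ b6) (sgnZ b7) (sgnZ b8)
        = -16 := by
  decide +kernel

lemma g9_eq_poly (x : Fin 9 → Bool) : g9 x =
    ((poly9 (sgnZ (x 0)) (sgnZ (x 1)) (sgnZ (x 2)) (sgnZ (x 3)) (sgnZ (x 4)) (sgnZ (x 5))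
      (sgnZ (x 6)) (sgnZ (x 7)) (sgnZ (x 8)) : ℤ) : ℝ) / 16 := by
  simp only [g9, NM2, NM1, NP1, NP2, NP3, NP4, NP5, List.map_cons, List.map_nil, List.sum_cons,
    List.sum_nil, chi, poly9]
  push_cast
  simp only [sgnZ_cast]
  simp
  ring

/-- `g9` is Boolean-valued -/
lemma g9_bool (x : Fin 9 → Bool) : g9 x = 1 ∨ g9 x = -1 := by
  rw [g9_eq_poly]
  rcases poly9_bool (x 0) (x 1) (x 2) (x 3) (x 4) (x 5) (x 6) (x 7) (x 8) with h | h
  · left; rw [h]; norm_num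
  · right; rw [h]; norm_num

/-- unnormalised Fourier coefficients of `g9` -/
lemma g9_sum_mul_chi (S : Finset (Fin 9)) :
    ∑ x, g9 x * chi S x = (2 : ℝ) ^ 9 * ((-2) * (NM2.count S : ℝ) + (-1) * (NM1.count S : ℝ)
      + 1 * (NP1.count S : ℝ) + 2 * (NP2.count S : ℝ) + 3 * (NP3.count S : ℝ)
      + 4 * (NP4.count S : ℝ) + 5 * (NP5.count S : ℝ)) / 16 := by
  have h1 := sum_listsum_mul_chi NM2 S
  have h2 := sum_listsum_mul_chi NM1 S
  have h3 := sum_listsum_mul_chi NP1 S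
  have h4 := sum_listsum_mul_chi NP2 S
  have h5 := sum_listsum_mul_chi NP3 S
  have h6 := sum_listsum_mul_chi NP4 S
  have h7 := sum_listsum_mul_chi NP5 S
  simp only [Fintype.card_fin] at h1 h2 h3 h4 h5 h6 h7
  have : ∀ x : Fin 9 → Bool, g9 x * chi S x =
      ((-2) * ((NM2.map (fun T => chi T x)).sum * chi S x)
        + (-1) * ((NM1.map (fun T => chi T x)).sum * chi S x)
        + 1 * ((NP1.map (fun T => chi T x)).sum * chi S x)
        + 2 * ((NP2.map (fun T => chi T x)).sum * chi S x)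
        + 3 * ((NP3.map (fun T => chi T x)).sum * chi S x)
        + 4 * ((NP4.map (fun T => chi T x)).sum * chi S x)
        + 5 * ((NP5.map (fun T => chi T x)).sum * chi S x)) / 16 := by
    intro x
    simp only [g9]
    ring
  simp only [this]
  rw [← Finset.sum_div]
  simp only [Finset.sum_add_distrib, ← Finset.mul_sum, h1, h2, h3, h4, h5, h6, h7]
  ring

set_option maxRecDepth 1000000 in
lemma NM2_card : ∀ T ∈ NM2, T.card ≤ 5 := by decide +kernel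
set_option maxRecDepth 1000000 in
lemma NM1_card : ∀ T ∈ NM1, T.card ≤ 5 := by decide +kernel
set_option maxRecDepth 1000000 in
lemma NP1_card : ∀ T ∈ NP1, T.card ≤ 5 := by decide +kernel
set_option maxRecDepth 1000000 in
lemma NP2_card : ∀ T ∈ NP2, T.card ≤ 5 := by decide +kernel
set_option maxRecDepth 1000000 in
lemma NP3_card : ∀ T ∈ NP3, T.card ≤ 5 := by decide +kernel
set_option maxRecDepth 1000000 in
lemma NP4_card : ∀ T ∈ NP4, T.card ≤ 5 := by decide +kernel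
set_option maxRecDepth 1000000 in
lemma NP5_card : ∀ T ∈ NP5, T.card ≤ 5 := by decide +kernel

/-- `g9` has degree at most five -/
lemma g9_deg (S : Finset (Fin 9)) (hS : 6 ≤ S.card) : ∑ x, g9 x * chi S x = 0 := by
  rw [g9_sum_mul_chi]
  have e1 : NM2.count S = 0 := List.count_eq_zero.mpr (fun h => by have := NM2_card S h; omega)
  have e2 : NM1.count S = 0 := List.count_eq_zero.mpr (fun h => by have := NM1_card S h; omega)
  have e3 : NP1.count S = 0 := List.count_eq_zero.mpr (fun h => by have := NP1_card S h; omega)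
  have e4 : NP2.count S = 0 := List.count_eq_zero.mpr (fun h => by have := NP2_card S h; omega)
  have e5 : NP3.count S = 0 := List.count_eq_zero.mpr (fun h => by have := NP3_card S h; omega)
  have e6 : NP4.count S = 0 := List.count_eq_zero.mpr (fun h => by have := NP4_card S h; omega)
  have e7 : NP5.count S = 0 := List.count_eq_zero.mpr (fun h => by have := NP5_card S h; omega)
  simp [e1, e2, e3, e4, e5, e6, e7]

/-- sixteen times the level-one Fourier coefficients of `g9` -/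
def c9 : Fin 9 → ℕ := ![3, 4, 5, 4, 4, 3, 3, 3, 3]

set_option maxRecDepth 1000000 in
lemma count_singleton : ∀ i : Fin 9,
    NM2.count {i} = 0 ∧ NM1.count {i} = 0 ∧ NP1.count {i} = 0 ∧ NP2.count {i} = 0 ∧
    3 * NP3.count {i} + 4 * NP4.count {i} + 5 * NP5.count {i} = c9 i := by
  decide +kernel

/-- the level-one Fourier coefficients of `g9` (unnormalised) -/
lemma g9_level_one (i : Fin 9) : ∑ x, g9 x * sgn (x i) = 32 * (c9 i : ℝ) := by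
  have h := g9_sum_mul_chi {i}
  simp only [chi_singleton] at h
  rw [h]
  obtain ⟨e1, e2, e3, e4, e5⟩ := count_singleton i
  rw [e1, e2, e3, e4, ← e5]
  push_cast
  ring

/-- the level-one sum of `g9` is `2` (unnormalised: `1024 = 512 * 2`) -/
lemma g9_lin : ∑ x, g9 x * lin x = 1024 := by
  simp only [lin, Finset.mul_sum]
  rw [Finset.sum_comm]
  simp only [g9_level_one]
  simp [Fin.sum_univ_succ, c9]
  norm_num

end Vale.Agent.H26.GS
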