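import Vale.Agent.H13.GSCount
import Vale.Agent.H26.GSNine

/-!
# Gluing for odd degrees: a decision tree whose leaves are thresholds of five variables, or `g9`

This mirrors `Vale.Agent.H13.GSGlue` (even degrees, leaf `f7`), with the nine-variable odd
function `g9` of degree five in place of `f7`.
-/

namespace Vale.Agent.H26.GS

open Finset Vale.Agent.H13.GS

lemma sum_abs_lin5 : ∑ u : Fin 5 → Bool, |lin u| = 60 := by
  rw [sum_cube_succ, sum_cube_succ, sum_cube_succ, sum_cube_succ, sum_cube_succ]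
  simp [lin, Fin.sum_univ_succ]
  norm_num

/-- `g9` transported to the index type `Fin 5 ⊕ Fin 4` -/
noncomputable def h9 (w : Fin 5 ⊕ Fin 4 → Bool) : ℝ :=
  g9 (w ∘ (finSumFinEquiv (m := 5) (n := 4)).symm)

lemma h9_bool (w : Fin 5 ⊕ Fin 4 → Bool) : h9 w = 1 ∨ h9 w = -1 := g9_bool _

lemma h9_deg (S : Finset (Fin 5 ⊕ Fin 4)) (hS : 6 ≤ S.card) : ∑ w, h9 w * chi S w = 0 := by
  unfold h9
  rw [sum_comp_mul_chi]
  apply g9_deg
  simpa using hS

lemma h9_lin : ∑ w, h9 w * lin w = 1024 := by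
  unfold h9
  rw [sum_comp_mul_lin]
  exact g9_lin

/-- threshold leaf: the sign of `c + w_1 + ... + w_5` (ties broken as `+1`);
it ignores the last four coordinates -/
noncomputable def thr5 (c : ℝ) (w : Fin 5 ⊕ Fin 4 → Bool) : ℝ :=
  if 0 ≤ c + lin (w ∘ Sum.inl) then 1 else -1

lemma thr5_bool (c : ℝ) (w : Fin 5 ⊕ Fin 4 → Bool) : thr5 c w = 1 ∨ thr5 c w = -1 := by
  unfold thr5; split_ifs <;> simp

lemma flip_inr_comp_inl5 (j : Fin 4) (w : Fin 5 ⊕ Fin 4 → Bool) :
    (flip (Sum.inr j) w) ∘ Sum.inl = w ∘ Sum.inl := by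
  funext i
  simp [Vale.Agent.H13.GS.flip]

lemma thr5_flip (c : ℝ) (j : Fin 4) (w : Fin 5 ⊕ Fin 4 → Bool) :
    thr5 c (flip (Sum.inr j) w) = thr5 c w := by
  unfold thr5
  rw [flip_inr_comp_inl5]

lemma thr5_deg (c : ℝ) (S : Finset (Fin 5 ⊕ Fin 4)) (hS : 6 ≤ S.card) :
    ∑ w, thr5 c w * chi S w = 0 := by
  have h1 : S.toLeft.card ≤ 5 := by
    have := Finset.card_le_univ S.toLeft
    simpa using this
  have h2 := Finset.card_toLeft_add_card_toRight (u := S)
  have h3 : 0 < S.toRight.card := by omega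
  obtain ⟨j, hj⟩ := Finset.card_pos.mp h3
  have hj' : Sum.inr j ∈ S := by simpa using hj
  apply sum_eq_zero_of_flip (Sum.inr j)
  intro w
  rw [thr5_flip, chi_flip_mem hj']
  ring

lemma thr5_mul (c : ℝ) (w : Fin 5 ⊕ Fin 4 → Bool) :
    thr5 c w * (c + lin (w ∘ Sum.inl)) = |c + lin (w ∘ Sum.inl)| := by
  unfold thr5
  split_ifs with h
  · rw [abs_of_nonneg h]; ring
  · rw [abs_of_neg (not_le.mp h)]; ring

lemma thr5_sgn_inr (c : ℝ) (j : Fin 4) : ∑ w, thr5 c w * sgn (w (Sum.inr j)) = 0 := by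
  apply sum_eq_zero_of_flip (Sum.inr j)
  intro w
  rw [thr5_flip]
  simp [Vale.Agent.H13.GS.flip, sgn_not]

lemma lin_split5 (w : Fin 5 ⊕ Fin 4 → Bool) :
    lin w = lin (w ∘ Sum.inl) + ∑ j : Fin 4, sgn (w (Sum.inr j)) := by
  simp [lin, Fintype.sum_sum_type]

lemma sum_abs_left5 (c : ℝ) :
    ∑ w : Fin 5 ⊕ Fin 4 → Bool, |c + lin (w ∘ Sum.inl)|
      = 16 * ∑ u : Fin 5 → Bool, |c + lin u| := by
  rw [Vale.Agent.H13.GS.sum_sumElim]
  simp only [Sum.elim_comp_inl, Finset.sum_const, Finset.card_univ]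
  rw [Finset.mul_sum]
  apply Finset.sum_congr rfl
  intro u _
  simp

lemma thr5_lin (c : ℝ) :
    ∑ w, thr5 c w * (c + lin w) = 16 * ∑ u : Fin 5 → Bool, |c + lin u| := by
  rw [← sum_abs_left5]
  have : ∀ w : Fin 5 ⊕ Fin 4 → Bool, thr5 c w * (c + lin w)
      = |c + lin (w ∘ Sum.inl)| + ∑ j : Fin 4, thr5 c w * sgn (w (Sum.inr j)) := by
    intro w
    rw [← thr5_mul, lin_split5, ← Finset.mul_sum]
    ring
  simp only [this]
  rw [Finset.sum_add_distrib, Finset.sum_comm]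
  simp [thr5_sgn_inr]

/-- the glued function: a decision tree on the first `t` coordinates, with leaf `h9` when their
sum is zero and a threshold leaf otherwise -/
noncomputable def glue5 (t : ℕ) (z : Fin t ⊕ (Fin 5 ⊕ Fin 4) → Bool) : ℝ :=
  if lin (z ∘ Sum.inl) = 0 then h9 (z ∘ Sum.inr) else thr5 (lin (z ∘ Sum.inl)) (z ∘ Sum.inr)

lemma glue5_bool (t : ℕ) (z : Fin t ⊕ (Fin 5 ⊕ Fin 4) → Bool) :
    glue5 t z = 1 ∨ glue5 t z = -1 := by
  unfold glue5
  split_ifs
  · exact h9_bool _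
  · exact thr5_bool _ _

lemma glue5_deg (t : ℕ) (S : Finset (Fin t ⊕ (Fin 5 ⊕ Fin 4))) (hS : t + 5 < S.card) :
    ∑ z, glue5 t z * chi S z = 0 := by
  have h1 : S.toLeft.card ≤ t := by
    have := Finset.card_le_univ S.toLeft
    simpa using this
  have h2 := Finset.card_toLeft_add_card_toRight (u := S)
  have h3 : 6 ≤ S.toRight.card := by omega
  rw [Vale.Agent.H13.GS.sum_sumElim]
  apply Finset.sum_eq_zero
  intro y _
  simp only [chi_sumElim, glue5, Sum.elim_comp_inl, Sum.elim_comp_inr]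
  by_cases hy : lin y = 0
  · simp only [hy, if_true]
    have := h9_deg S.toRight h3
    calc ∑ w, h9 w * (chi S.toLeft y * chi S.toRight w)
        = chi S.toLeft y * ∑ w, h9 w * chi S.toRight w := by
          rw [Finset.mul_sum]; apply Finset.sum_congr rfl; intro w _; ring
      _ = 0 := by rw [this]; ring
  · simp only [hy, if_false]
    have := thr5_deg (lin y) S.toRight h3
    calc ∑ w, thr5 (lin y) w * (chi S.toLeft y * chi S.toRight w)
        = chi S.toLeft y * ∑ w, thr5 (lin y) w * chi S.toRight w := by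
          rw [Finset.mul_sum]; apply Finset.sum_congr rfl; intro w _; ring
      _ = 0 := by rw [this]; ring

lemma glue5_lin (t : ℕ) :
    ∑ z, glue5 t z * lin z = 16 * ∑ z' : Fin t ⊕ Fin 5 → Bool, |lin z'|
      + 64 * ((Finset.univ.filter (fun y : Fin t → Bool => lin y = 0)).card : ℝ) := by
  rw [Vale.Agent.H13.GS.sum_sumElim, Vale.Agent.H13.GS.sum_sumElim]
  have key : ∀ y : Fin t → Bool,
      ∑ w, glue5 t (Sum.elim y w) * lin (Sum.elim y w)
        = 16 * ∑ u : Fin 5 → Bool, |lin (Sum.elim y u)| + (if lin y = 0 then 64 else 0) := by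
    intro y
    simp only [lin_sumElim, glue5, Sum.elim_comp_inl, Sum.elim_comp_inr]
    by_cases hy : lin y = 0
    · simp only [hy, if_true, zero_add]
      rw [h9_lin, sum_abs_lin5]; norm_num
    · simp only [hy, if_false, add_zero]
      exact thr5_lin (lin y)
  simp only [key]
  rw [Finset.sum_add_distrib, ← Finset.mul_sum, Finset.sum_ite, Finset.sum_const, Finset.sum_const]
  simp
  ring

/-- the equivalence used to put the glued function on `Fin (t + 9)` -/
def bigEquiv5 (t : ℕ) : Fin t ⊕ (Fin 5 ⊕ Fin 4) ≃ Fin (t + 9) :=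
  (Equiv.sumCongr (Equiv.refl (Fin t)) (finSumFinEquiv (m := 5) (n := 4))).trans
    (finSumFinEquiv (m := t) (n := 9))

/-- the final function on `Fin (t + 9) → Bool` -/
noncomputable def bigG (t : ℕ) (x : Fin (t + 9) → Bool) : ℝ := glue5 t (x ∘ bigEquiv5 t)

lemma bigG_bool (t : ℕ) (x : Fin (t + 9) → Bool) : bigG t x = 1 ∨ bigG t x = -1 :=
  glue5_bool t _

lemma bigG_deg (t : ℕ) (S : Finset (Fin (t + 9))) (hS : t + 5 < S.card) :
    ∑ x, bigG t x * chi S x = 0 := by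
  unfold bigG
  rw [sum_comp_mul_chi]
  apply glue5_deg
  simpa using hS

lemma bigG_lin (t : ℕ) :
    ∑ x, bigG t x * lin x = 16 * ∑ z : Fin (t + 5) → Bool, |lin z|
      + 64 * ((Finset.univ.filter (fun y : Fin t → Bool => lin y = 0)).card : ℝ) := by
  unfold bigG
  rw [sum_comp_mul_lin, glue5_lin, sum_comp_abs_lin (finSumFinEquiv (m := t) (n := 5))]

/-- main theorem for odd degrees `t + 5` (`t` even), in terms of `chi` and `lin` -/
theorem main_odd (t : ℕ) (ht : Even t) :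
    (∀ x, bigG t x = 1 ∨ bigG t x = -1) ∧
    (∀ S : Finset (Fin (t + 9)), t + 5 < S.card → ∑ x, bigG t x * chi S x = 0) ∧
    (∑ x, bigG t x * lin x) / 2 ^ (t + 9)
      = (∑ z : Fin (t + 5) → Bool, |lin z|) / 2 ^ (t + 5) + (t.choose (t / 2) : ℝ) / 2 ^ (t + 3) := by
  refine ⟨bigG_bool t, bigG_deg t, ?_⟩
  rw [bigG_lin, card_lin_zero t ht]
  have h1 : (2 : ℝ) ^ (t + 9) = 16 * 2 ^ (t + 5) := by rw [pow_add, pow_add]; norm_num; ring
  have h2 : (2 : ℝ) ^ (t + 9) = 64 * 2 ^ (t + 3) := by rw [pow_add, pow_add]; norm_num; ring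
  have hp5 : (2 : ℝ) ^ (t + 5) ≠ 0 := by positivity
  have hp3 : (2 : ℝ) ^ (t + 3) ≠ 0 := by positivity
  rw [add_div]
  congr 1
  · rw [h1]; field_simp
  · rw [h2]; field_simp

end Vale.Agent.H26.GS
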