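import Vale.Agent.H13.GSCount
import Vale.Agent.H26.GSOdd

/-!
# The level-one sum exceeds `B_d` in every degree `d ≥ 4`

Even degrees: `Vale.Agent.H13.GS.main_even` (leaf `f7`).  Odd degrees: `main_odd` (leaf `g9`).
-/

namespace Vale.Agent.H26.GS

open Finset Vale.Agent.H13.GS

/-- For every `d ≥ 4` there is a Boolean function of degree at most `d` whose level-one sum is
`B_d + C(2⌊(d-4)/2⌋, ⌊(d-4)/2⌋) / 2^(d-2) > B_d`. -/
theorem all_degrees : ∀ d : ℕ, 4 ≤ d →
    ∃ (n : ℕ) (f : (Fin n → Bool) → ℝ),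
      (∀ x, f x = 1 ∨ f x = -1) ∧
      (∀ S : Finset (Fin n), d < S.card →
        (∑ x : Fin n → Bool, f x * ∏ i ∈ S, (if x i then (-1 : ℝ) else 1)) / 2 ^ n = 0) ∧
      (∑ i : Fin n, (∑ x : Fin n → Bool, f x * (if x i then (-1 : ℝ) else 1)) / 2 ^ n)
        = (∑ x : Fin d → Bool, |∑ i : Fin d, (if x i then (-1 : ℝ) else 1)|) / 2 ^ d
          + ((2 * ((d - 4) / 2)).choose ((d - 4) / 2) : ℝ) / 2 ^ (d - 2) ∧
      (∑ x : Fin d → Bool, |∑ i : Fin d, (if x i then (-1 : ℝ) else 1)|) / 2 ^ d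
        < ∑ i : Fin n, (∑ x : Fin n → Bool, f x * (if x i then (-1 : ℝ) else 1)) / 2 ^ n := by
  intro d hd
  rcases Nat.even_or_odd d with hev | hodd
  · -- even degree: `d = t + 4`, `t` even
    obtain ⟨t, rfl⟩ : ∃ t, d = t + 4 := ⟨d - 4, by omega⟩
    have ht : Even t := by
      rcases hev with ⟨m, hm⟩
      exact ⟨m - 2, by omega⟩
    obtain ⟨hb, hdeg, hlin⟩ := main_even t ht
    have hsum : (∑ i : Fin (t + 7), (∑ x : Fin (t + 7) → Bool,
        bigF t x * (if x i then (-1 : ℝ) else 1)) / 2 ^ (t + 7))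
        = (∑ x, bigF t x * lin x) / 2 ^ (t + 7) := by
      rw [← Finset.sum_div, Finset.sum_comm]
      congr 1
      apply Finset.sum_congr rfl
      intro x _
      rw [← Finset.mul_sum]
      rfl
    have hB : (∑ x : Fin (t + 4) → Bool, |∑ i : Fin (t + 4), (if x i then (-1 : ℝ) else 1)|)
        = ∑ z : Fin (t + 4) → Bool, |lin z| := rfl
    have e1 : 2 * ((t + 4 - 4) / 2) = t := by
      rcases ht with ⟨m, hm⟩; omega
    have e1' : (t + 4 - 4) / 2 = t / 2 := by omega
    have e2 : t + 4 - 2 = t + 2 := by omega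
    refine ⟨t + 7, bigF t, hb, ?_, ?_, ?_⟩
    · intro S hS
      have := hdeg S hS
      have h2 : (∑ x : Fin (t + 7) → Bool, bigF t x * ∏ i ∈ S, (if x i then (-1 : ℝ) else 1))
          = ∑ x, bigF t x * chi S x := rfl
      rw [h2, this, zero_div]
    · rw [hsum, hB, hlin, e1, e1', e2]
    · rw [hsum, hB, hlin]
      have hpos : (0 : ℝ) < (t.choose (t / 2) : ℝ) / 2 ^ (t + 2) := by
        have : 0 < t.choose (t / 2) := Nat.choose_pos (Nat.div_le_self t 2)
        positivity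
      linarith
  · -- odd degree: `d = t + 5`, `t` even
    obtain ⟨t, rfl⟩ : ∃ t, d = t + 5 := ⟨d - 5, by rcases hodd with ⟨m, hm⟩; omega⟩
    have ht : Even t := by
      rcases hodd with ⟨m, hm⟩
      exact ⟨m - 2, by omega⟩
    obtain ⟨hb, hdeg, hlin⟩ := main_odd t ht
    have hsum : (∑ i : Fin (t + 9), (∑ x : Fin (t + 9) → Bool,
        bigG t x * (if x i then (-1 : ℝ) else 1)) / 2 ^ (t + 9))
        = (∑ x, bigG t x * lin x) / 2 ^ (t + 9) := by
      rw [← Finset.sum_div, Finset.sum_comm]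
      congr 1
      apply Finset.sum_congr rfl
      intro x _
      rw [← Finset.mul_sum]
      rfl
    have hB : (∑ x : Fin (t + 5) → Bool, |∑ i : Fin (t + 5), (if x i then (-1 : ℝ) else 1)|)
        = ∑ z : Fin (t + 5) → Bool, |lin z| := rfl
    have e1 : 2 * ((t + 5 - 4) / 2) = t := by
      rcases ht with ⟨m, hm⟩; omega
    have e1' : (t + 5 - 4) / 2 = t / 2 := by
      rcases ht with ⟨m, hm⟩; omega
    have e2 : t + 5 - 2 = t + 3 := by omega
    refine ⟨t + 9, bigG t, hb, ?_, ?_, ?_⟩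
    · intro S hS
      have := hdeg S hS
      have h2 : (∑ x : Fin (t + 9) → Bool, bigG t x * ∏ i ∈ S, (if x i then (-1 : ℝ) else 1))
          = ∑ x, bigG t x * chi S x := rfl
      rw [h2, this, zero_div]
    · rw [hsum, hB, hlin, e1, e1', e2]
    · rw [hsum, hB, hlin]
      have hpos : (0 : ℝ) < (t.choose (t / 2) : ℝ) / 2 ^ (t + 3) := by
        have : 0 < t.choose (t / 2) := Nat.choose_pos (Nat.div_le_self t 2)
        positivity
      linarith

end Vale.Agent.H26.GS
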