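import Vale.Agent.H46.TensorPower
import Vale.Agent.H26.ConicalJunta
import Vale.Agent.H39.CubeDefs

/-!
# P047: the tensor-power equivalence and the subcube bounds in the `fhat` vocabulary (seat H26)

Thin wrappers that restate two landed results with the definitions `bsign`, `fhat` of
`Vale.Agent.H39.CubeDefs`, the degree bound being the hypothesis
`∀ S, d < S.card → fhat f S = 0`:

* `c_fhat`: the weak form `∑_i f^({i}) ≤ C √d` (one absolute `C`, all `f` of degree at most `d`)
  holds if and only if for all `f` of degree at most `d`: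
  `∑_i f^({i}) + |E f| ≤ √(d+1)`, and `≤ √d` when `E f = 0` or `d` is odd;
* `a2_fhat`: if one level set of a Boolean `f` is a disjoint union of subcubes with at most `d`
  fixed coordinates each, then `∑_i |f^({i})| ≤ 2 e^(-1/2) (√d + 1/2)`;
* `a1_fhat`: if the cube is partitioned into subcubes with at most `D` fixed coordinates each and
  `f` is constant on each of them, then the square of `∑_i f^({i})` is at most `D` times
  `1 - (E f)^2`.
-/

namespace Vale.Agent.H26.GSConj

open Vale.Agent.H39 Vale.Agent.H46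

/-! ### the bridge between the two sets of definitions -/

lemma fourier_eq_fhat {n : ℕ} (f : (Fin n → Bool) → Bool) (S : Finset (Fin n)) :
    fourier f S = fhat f S := by
  unfold Vale.Agent.H46.fourier fhat Vale.Agent.H46.chi
  rw [Fintype.card_fin]
  rfl

lemma levelOne_eq_fhat {n : ℕ} (f : (Fin n → Bool) → Bool) :
    levelOne f = ∑ i : Fin n, fhat f {i} := by
  unfold Vale.Agent.H46.levelOne
  exact Finset.sum_congr rfl fun i _ => fourier_eq_fhat f {i}

lemma deg_le_iff_fhat {n : ℕ} (f : (Fin n → Bool) → Bool) (d : ℕ) :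
    deg f ≤ d ↔ ∀ S : Finset (Fin n), d < S.card → fhat f S = 0 := by
  rw [deg_le_iff]
  constructor
  · intro h S hS
    by_contra hne
    have := h S (by rw [fourier_eq_fhat]; exact hne)
    omega
  · intro h S hS
    by_contra hlt
    exact hS (by rw [fourier_eq_fhat]; exact h S (by omega))

/-- the landed statement of `C_TensorPower`, with the degree function of `H46` -/
theorem c_deg :
    (∃ C : ℝ, ∀ (n : ℕ) (f : (Fin n → Bool) → Bool), levelOne f ≤ C * Real.sqrt (deg f)) ↔
    ∀ (n : ℕ) (f : (Fin n → Bool) → Bool),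
      ((fourier f ∅ = 0 ∨ Odd (deg f)) →
          levelOne f + |fourier f ∅| ≤ Real.sqrt (deg f)) ∧
      levelOne f + |fourier f ∅| ≤ Real.sqrt (deg f + 1) := by
  constructor
  · rintro ⟨C, hC⟩ n f
    obtain ⟨s, hs⟩ : ∃ s : Bool, sgn s * fourier f ∅ = |fourier f ∅| := by
      rcases le_total 0 (fourier f ∅) with h | h
      · exact ⟨false, by simp [abs_of_nonneg h]⟩
      · exact ⟨true, by simp [abs_of_nonpos h]⟩
    have hodd := balanced_bound C hC (oddify s f) (fourier_oddify_empty s f)
    rw [levelOne_oddify, hs] at hodd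
    refine ⟨?_, ?_⟩
    · rintro (h0 | h1)
      · have := balanced_bound C hC f h0
        simpa [h0] using this
      · refine hodd.trans (Real.sqrt_le_sqrt ?_)
        exact_mod_cast deg_oddify_le_of_odd s f h1
    · refine hodd.trans (Real.sqrt_le_sqrt ?_)
      exact_mod_cast deg_oddify_le s f
  · intro H
    refine ⟨Real.sqrt 2, fun n f => ?_⟩
    rcases Nat.eq_zero_or_pos (deg f) with h0 | h0
    · have h1 : levelOne f = 0 := by
        rw [levelOne]
        refine Finset.sum_eq_zero (fun i _ => ?_)
        by_contra hne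
        have := card_le_deg f {i} hne
        rw [h0] at this
        simp at this
      rw [h1, h0]
      simp
    · have h1 := (H n f).2
      have h2 : (1 : ℝ) ≤ (deg f : ℝ) := by exact_mod_cast h0
      calc levelOne f ≤ levelOne f + |fourier f ∅| := le_add_of_nonneg_right (abs_nonneg _)
        _ ≤ Real.sqrt (deg f + 1) := h1
        _ ≤ Real.sqrt (2 * deg f) := Real.sqrt_le_sqrt (by linarith)
        _ = Real.sqrt 2 * Real.sqrt (deg f) := Real.sqrt_mul (by norm_num) _

/-- The weak form of the conjecture is equivalent to a constant-one form, stated with `fhat`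
and with the degree bound as a hypothesis. -/
theorem c_fhat :
    (∃ C : ℝ, ∀ (n d : ℕ) (f : (Fin n → Bool) → Bool),
        (∀ S : Finset (Fin n), d < S.card → fhat f S = 0) →
        ∑ i : Fin n, fhat f {i} ≤ C * Real.sqrt d) ↔
    ∀ (n d : ℕ) (f : (Fin n → Bool) → Bool),
        (∀ S : Finset (Fin n), d < S.card → fhat f S = 0) →
        ((fhat f ∅ = 0 ∨ Odd d) → ∑ i : Fin n, fhat f {i} + |fhat f ∅| ≤ Real.sqrt d) ∧
        ∑ i : Fin n, fhat f {i} + |fhat f ∅| ≤ Real.sqrt (d + 1) := by
  constructor
  · rintro ⟨C, hC⟩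
    have hweak : ∃ C : ℝ, ∀ (n : ℕ) (f : (Fin n → Bool) → Bool),
        levelOne f ≤ C * Real.sqrt (deg f) := by
      refine ⟨C, fun n f => ?_⟩
      rw [levelOne_eq_fhat]
      exact hC n (deg f) f ((deg_le_iff_fhat f (deg f)).mp le_rfl)
    have H := c_deg.mp hweak
    intro n d f hv
    have hdeg : deg f ≤ d := (deg_le_iff_fhat f d).mpr hv
    have hdegR : ((deg f : ℕ) : ℝ) ≤ (d : ℝ) := by exact_mod_cast hdeg
    obtain ⟨H1, H2⟩ := H n f
    rw [levelOne_eq_fhat, fourier_eq_fhat] at H1 H2
    refine ⟨?_, ?_⟩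
    · rintro (h0 | hodd)
      · exact (H1 (Or.inl h0)).trans (Real.sqrt_le_sqrt hdegR)
      · rcases Nat.lt_or_ge (deg f) d with hlt | hge
        · refine H2.trans (Real.sqrt_le_sqrt ?_)
          have : ((deg f : ℕ) : ℝ) + 1 ≤ (d : ℝ) := by exact_mod_cast hlt
          exact this
        · have heq : deg f = d := le_antisymm hdeg hge
          have := H1 (Or.inr (heq ▸ hodd))
          rw [heq] at this
          exact this
    · refine H2.trans (Real.sqrt_le_sqrt ?_)
      linarith
  · intro H
    have hstrong : ∀ (n : ℕ) (f : (Fin n → Bool) → Bool),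
        ((fourier f ∅ = 0 ∨ Odd (deg f)) →
            levelOne f + |fourier f ∅| ≤ Real.sqrt (deg f)) ∧
        levelOne f + |fourier f ∅| ≤ Real.sqrt (deg f + 1) := by
      intro n f
      have := H n (deg f) f ((deg_le_iff_fhat f (deg f)).mp le_rfl)
      rw [levelOne_eq_fhat, fourier_eq_fhat]
      exact this
    obtain ⟨C, hC⟩ := c_deg.mpr hstrong
    refine ⟨max C 0, fun n d f hv => ?_⟩
    have hdeg : deg f ≤ d := (deg_le_iff_fhat f d).mpr hv
    have hdegR : ((deg f : ℕ) : ℝ) ≤ (d : ℝ) := by exact_mod_cast hdeg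
    have h1 := hC n f
    rw [levelOne_eq_fhat] at h1
    calc ∑ i : Fin n, fhat f {i} ≤ C * Real.sqrt (deg f) := h1
      _ ≤ max C 0 * Real.sqrt (deg f) :=
          mul_le_mul_of_nonneg_right (le_max_left _ _) (Real.sqrt_nonneg _)
      _ ≤ max C 0 * Real.sqrt d :=
          mul_le_mul_of_nonneg_left (Real.sqrt_le_sqrt hdegR) (le_max_right _ _)

/-! ### the subcube bounds -/

lemma fhat_singleton_eq {n : ℕ} (f : (Fin n → Bool) → Bool) (i : Fin n) :
    fhat f {i}
      = (∑ x : Fin n → Bool, bsign (f x) * (if x i then (-1 : ℝ) else 1)) / 2 ^ n := by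
  unfold fhat
  simp only [Finset.prod_singleton]
  rfl

lemma fhat_empty_eq {n : ℕ} (f : (Fin n → Bool) → Bool) :
    fhat f ∅ = (∑ x : Fin n → Bool, bsign (f x)) / 2 ^ n := by
  unfold fhat
  simp

/-- One level set is a disjoint union of subcubes with at most `d` fixed coordinates. -/
theorem a2_fhat (n d : ℕ) (f : (Fin n → Bool) → Bool) (s : Bool) (J : Type) [Fintype J]
    (a : J → Fin n → Option Bool)
    (hd : ∀ j, (Finset.univ.filter (fun i => a j i ≠ none)).card ≤ d)
    (hdisj : ∀ (x : Fin n → Bool) (j j' : J), (∀ i b, a j i = some b → x i = b) →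
      (∀ i b, a j' i = some b → x i = b) → j = j')
    (hunion : ∀ x : Fin n → Bool, f x = s ↔ ∃ j, ∀ i b, a j i = some b → x i = b) :
    ∑ i : Fin n, |fhat f {i}| ≤ 2 * Real.exp (-1 / 2) * (Real.sqrt d + 1 / 2) := by
  classical
  have hg : ∀ x : Fin n → Bool,
      (∑ j, (if ∀ i b, a j i = some b → x i = b then (1 : ℝ) else 0))
        = if f x = s then 1 else 0 := by
    intro x
    by_cases hx : f x = s
    · obtain ⟨j0, hj0⟩ := (hunion x).mp hx
      rw [if_pos hx, Finset.sum_eq_single j0]
      · rw [if_pos hj0]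
      · intro j _ hne
        rw [if_neg]
        intro hj
        exact hne (hdisj x j j0 hj hj0)
      · intro h
        exact absurd (Finset.mem_univ j0) h
    · rw [if_neg hx]
      refine Finset.sum_eq_zero fun j _ => ?_
      rw [if_neg]
      intro hj
      exact hx ((hunion x).mpr ⟨j, hj⟩)
  have hmain := Vale.Agent.H26.CJ.conical_statement n J a (fun _ => (1 : ℝ))
    (fun x => bsign (f x)) (-bsign s) d
    (by cases s <;> simp [bsign])
    (fun _ => zero_le_one)
    (fun j _ => hd j)
    (fun x => by
      rw [hg x]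
      split_ifs <;> norm_num)
    (fun x => by
      rw [hg x]
      by_cases hx : f x = s
      · rw [if_pos hx, hx]
        cases s <;> simp [bsign] <;> norm_num
      · rw [if_neg hx]
        cases hfx : f x <;> cases s <;> simp_all [bsign])
  calc ∑ i : Fin n, |fhat f {i}|
      = ∑ i : Fin n,
          |(∑ x : Fin n → Bool, bsign (f x) * (if x i then (-1 : ℝ) else 1)) / 2 ^ n| :=
        Finset.sum_congr rfl fun i _ => by rw [fhat_singleton_eq]
    _ ≤ _ := hmain

/-- The cube is partitioned into subcubes with at most `D` fixed coordinates and `f` is constant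
on each of them (for example the leaves of a decision tree of depth `D`). -/
theorem a1_fhat (n D : ℕ) (f : (Fin n → Bool) → Bool) (J : Type) [Fintype J]
    (a : J → Fin n → Option Bool)
    (hD : ∀ j, (Finset.univ.filter (fun i => a j i ≠ none)).card ≤ D)
    (hpart : ∀ x : Fin n → Bool, ∃! j, ∀ i b, a j i = some b → x i = b)
    (hconst : ∀ (j : J) (x y : Fin n → Bool), (∀ i b, a j i = some b → x i = b) →
      (∀ i b, a j i = some b → y i = b) → f x = f y) :
    (∑ i : Fin n, fhat f {i}) ^ 2 ≤ (1 - (fhat f ∅) ^ 2) * D := by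
  classical
  have hcover : ∀ x : Fin n → Bool,
      (∑ j, (if ∀ i b, a j i = some b → x i = b then (1 : ℝ) else 0)) = 1 := by
    intro x
    obtain ⟨j0, hj0, huniq⟩ := hpart x
    rw [Finset.sum_eq_single j0]
    · rw [if_pos hj0]
    · intro j _ hne
      rw [if_neg]
      intro hj
      exact hne (huniq j hj)
    · intro h
      exact absurd (Finset.mem_univ j0) h
  have hmain := (Vale.Agent.H26.SP.main_statement n J a (fun _ => (1 : ℝ))
    (fun x => bsign (f x)) (fun _ => zero_le_one) hcover
    (fun j _ x y hx hy => by rw [hconst j x y hx hy])).2 D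
    (fun x => by cases hfx : f x <;> simp [bsign])
    (fun j _ => hD j)
  have hsum : ∑ i : Fin n, fhat f {i}
      = ∑ i : Fin n,
          (∑ x : Fin n → Bool, bsign (f x) * (if x i then (-1 : ℝ) else 1)) / 2 ^ n :=
    Finset.sum_congr rfl fun i _ => fhat_singleton_eq f i
  rw [hsum, fhat_empty_eq]
  exact hmain

end Vale.Agent.H26.GSConj
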