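import Vale.Agent.H26.GSAll
import Vale.Agent.H39.CubeDefs

/-!
# The lower bounds of `Vale.Agent.H26.GS.all_degrees` for Bool-valued functions (seat H26)

The witnesses of `all_degrees` are sign-valued real functions; here they are recoded as functions
`(Fin n → Bool) → Bool` and the statement is expressed with `Vale.Agent.H39.fhat`.
-/

namespace Vale.Agent.H26.D4

open Vale.Agent.H39

/-- For every `d ≥ 4` there is a Boolean function of degree at most `d` whose level-one sum is
`B_d + C(2⌊(d-4)/2⌋, ⌊(d-4)/2⌋) / 2^(d-2) > B_d`, with `B_d = E|X_1 + ... + X_d|`. -/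
theorem all_degrees_fhat : ∀ d : ℕ, 4 ≤ d →
    ∃ (n : ℕ) (g : (Fin n → Bool) → Bool),
      (∀ S : Finset (Fin n), d < S.card → fhat g S = 0) ∧
      ∑ i : Fin n, fhat g {i}
        = (∑ x : Fin d → Bool, |∑ i : Fin d, bsign (x i)|) / 2 ^ d
          + ((2 * ((d - 4) / 2)).choose ((d - 4) / 2) : ℝ) / 2 ^ (d - 2) ∧
      (∑ x : Fin d → Bool, |∑ i : Fin d, bsign (x i)|) / 2 ^ d < ∑ i : Fin n, fhat g {i} := by
  classical
  intro d hd
  obtain ⟨n, f, hf, hdeg, hsum, hlt⟩ := Vale.Agent.H26.GS.all_degrees d hd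
  have hb : ∀ x : Fin n → Bool, bsign (decide (f x = -1)) = f x := by
    intro x
    rcases hf x with h | h
    · rw [h]
      norm_num [bsign]
    · rw [h]
      simp [bsign]
  have hfh : ∀ S : Finset (Fin n), fhat (fun x => decide (f x = -1)) S
      = (∑ x : Fin n → Bool, f x * ∏ i ∈ S, (if x i then (-1 : ℝ) else 1)) / 2 ^ n := by
    intro S
    unfold fhat
    congr 1
    apply Finset.sum_congr rfl
    intro x _
    rw [hb x]
    rfl
  have hone : ∀ i : Fin n, fhat (fun x => decide (f x = -1)) {i}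
      = (∑ x : Fin n → Bool, f x * (if x i then (-1 : ℝ) else 1)) / 2 ^ n := by
    intro i
    rw [hfh]
    simp only [Finset.prod_singleton]
  refine ⟨n, fun x => decide (f x = -1), ?_, ?_, ?_⟩
  · intro S hS
    rw [hfh, hdeg S hS]
  · rw [Finset.sum_congr rfl (fun i _ => hone i)]
    exact hsum
  · rw [Finset.sum_congr rfl (fun i _ => hone i)]
    exact hlt

end Vale.Agent.H26.D4
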