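import Mathlib

/-!
# Level-one Fourier sum and fractional subcube partitions

Points of `{-1,1}^n` are `x : Fin n → Bool` (`true ↦ -1`, `false ↦ 1`).  A subcube is given by a
partial assignment `p : Fin n → Option Bool` (`none` = free coordinate).
-/

namespace Vale.Agent.H26.SP

open Finset

variable {n : ℕ}

/-- the sign of a Boolean coordinate: `true ↦ -1`, `false ↦ 1` -/
def sg (b : Bool) : ℝ := if b then -1 else 1

lemma sg_mul_self (b : Bool) : sg b * sg b = 1 := by cases b <;> simp [sg]

lemma sg_not (b : Bool) : sg (!b) = - sg b := by cases b <;> simp [sg]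

/-- the linear form `x_1 + ... + x_n` -/
def lin (x : Fin n → Bool) : ℝ := ∑ i, sg (x i)

/-- indicator of the subcube of a partial assignment -/
noncomputable def ind (p : Fin n → Option Bool) (x : Fin n → Bool) : ℝ :=
  if ∀ i b, p i = some b → x i = b then 1 else 0

/-- the sign fixed by a partial assignment at a coordinate (`0` if free) -/
def beta (p : Fin n → Option Bool) (i : Fin n) : ℝ :=
  match p i with
  | none => 0
  | some b => sg b

/-- flipping coordinate `i` -/
def flipE (i : Fin n) : (Fin n → Bool) ≃ (Fin n → Bool) :=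
  Function.Involutive.toPerm (fun x => Function.update x i (!x i)) (by
    intro x
    funext k
    by_cases h : k = i
    · subst h; simp
    · simp [h])

lemma flipE_apply (i : Fin n) (x : Fin n → Bool) :
    flipE i x = Function.update x i (!x i) := rfl

lemma flipE_apply_self (i : Fin n) (x : Fin n → Bool) : flipE i x i = !x i := by
  rw [flipE_apply]; simp

lemma flipE_apply_ne (i k : Fin n) (h : k ≠ i) (x : Fin n → Bool) : flipE i x k = x k := by
  rw [flipE_apply]; simp [h]

lemma sum_zero_of_flip (i : Fin n) (G : (Fin n → Bool) → ℝ)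
    (h : ∀ x, G (flipE i x) = - G x) : ∑ x, G x = 0 := by
  have h1 : ∑ x, G (flipE i x) = ∑ x, G x := Equiv.sum_comp (flipE i) G
  have h2 : ∑ x, G (flipE i x) = - ∑ x, G x := by
    rw [← Finset.sum_neg_distrib]
    exact Finset.sum_congr rfl (fun x _ => h x)
  linarith

lemma ind_flip (p : Fin n → Option Bool) (i : Fin n) (hi : p i = none) (x : Fin n → Bool) :
    ind p (flipE i x) = ind p x := by
  unfold ind
  have : (∀ k b, p k = some b → flipE i x k = b) ↔ (∀ k b, p k = some b → x k = b) := by
    constructor
    · intro h k b hk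
      have hki : k ≠ i := by rintro rfl; rw [hi] at hk; exact absurd hk (by simp)
      rw [← flipE_apply_ne i k hki x]; exact h k b hk
    · intro h k b hk
      have hki : k ≠ i := by rintro rfl; rw [hi] at hk; exact absurd hk (by simp)
      rw [flipE_apply_ne i k hki x]; exact h k b hk
  simp only [this]

lemma ind_mul_sg (p : Fin n → Option Bool) (i : Fin n) (b : Bool) (hi : p i = some b)
    (x : Fin n → Bool) : ind p x * sg (x i) = ind p x * sg b := by
  unfold ind
  split_ifs with h
  · rw [h i b hi]
  · simp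

lemma beta_none (p : Fin n → Option Bool) (i : Fin n) (hi : p i = none) : beta p i = 0 := by
  simp [beta, hi]

lemma beta_some (p : Fin n → Option Bool) (i : Fin n) (b : Bool) (hi : p i = some b) :
    beta p i = sg b := by
  simp [beta, hi]

/-- first moment of a coordinate over a subcube -/
lemma sum_ind_sg (p : Fin n → Option Bool) (i : Fin n) :
    ∑ x, ind p x * sg (x i) = beta p i * ∑ x, ind p x := by
  cases hi : p i with
  | none =>
    rw [beta_none p i hi, zero_mul]
    apply sum_zero_of_flip i
    intro x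
    rw [ind_flip p i hi, flipE_apply_self, sg_not]; ring
  | some b =>
    rw [beta_some p i b hi, Finset.mul_sum]
    apply Finset.sum_congr rfl
    intro x _
    rw [ind_mul_sg p i b hi]; ring

/-- second moments of coordinates over a subcube -/
lemma sum_ind_sg_sg (p : Fin n → Option Bool) (i k : Fin n) :
    ∑ x, ind p x * (sg (x i) * sg (x k))
      = (if i = k then 1 else beta p i * beta p k) * ∑ x, ind p x := by
  by_cases hik : i = k
  · subst hik
    simp [sg_mul_self]
  · rw [if_neg hik]
    cases hi : p i with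
    | none =>
      rw [beta_none p i hi, zero_mul, zero_mul]
      apply sum_zero_of_flip i
      intro x
      rw [ind_flip p i hi, flipE_apply_self, sg_not, flipE_apply_ne i k (Ne.symm hik)]; ring
    | some b =>
      cases hk : p k with
      | none =>
        rw [beta_none p k hk, mul_zero, zero_mul]
        apply sum_zero_of_flip k
        intro x
        rw [ind_flip p k hk, flipE_apply_self, sg_not, flipE_apply_ne k i hik]; ring
      | some c =>
        rw [beta_some p i b hi, beta_some p k c hk, Finset.mul_sum]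
        apply Finset.sum_congr rfl
        intro x _
        calc ind p x * (sg (x i) * sg (x k)) = (ind p x * sg (x i)) * sg (x k) := by ring
          _ = (ind p x * sg b) * sg (x k) := by rw [ind_mul_sg p i b hi]
          _ = (ind p x * sg (x k)) * sg b := by ring
          _ = (ind p x * sg c) * sg b := by rw [ind_mul_sg p k c hk]
          _ = sg b * sg c * ind p x := by ring

lemma beta_sq (p : Fin n → Option Bool) (i : Fin n) :
    beta p i * beta p i = if p i ≠ none then 1 else 0 := by
  cases hi : p i with
  | none => simp [beta, hi]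
  | some b => simp [beta, hi, sg_mul_self]

/-- the sum of the linear form over a subcube -/
lemma sum_ind_lin (p : Fin n → Option Bool) :
    ∑ x, ind p x * lin x = (∑ x, ind p x) * ∑ i, beta p i := by
  unfold lin
  simp only [Finset.mul_sum]
  rw [Finset.sum_comm]
  simp only [sum_ind_sg]
  apply Finset.sum_congr rfl
  intro i _
  ring

/-- the sum of the square of the linear form over a subcube -/
lemma sum_ind_lin_sq (p : Fin n → Option Bool) :
    ∑ x, ind p x * lin x ^ 2
      = (∑ x, ind p x) * ((∑ i, beta p i) ^ 2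
          - ((univ.filter (fun i => p i ≠ none)).card : ℝ) + n) := by
  have h1 : ∀ x : Fin n → Bool, ind p x * lin x ^ 2
      = ∑ i, ∑ k, ind p x * (sg (x i) * sg (x k)) := by
    intro x
    unfold lin
    rw [sq, Finset.sum_mul_sum, Finset.mul_sum]
    apply Finset.sum_congr rfl
    intro i _
    rw [Finset.mul_sum]
  simp only [h1]
  rw [Finset.sum_comm]
  have h2 : ∀ i : Fin n, ∑ x : Fin n → Bool, ∑ k, ind p x * (sg (x i) * sg (x k))
      = ∑ k, (if i = k then 1 else beta p i * beta p k) * ∑ x, ind p x := by
    intro i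
    rw [Finset.sum_comm]
    apply Finset.sum_congr rfl
    intro k _
    exact sum_ind_sg_sg p i k
  simp only [h2]
  have h3 : ∀ i k : Fin n, (if i = k then (1 : ℝ) else beta p i * beta p k)
      = beta p i * beta p k + (if i = k then 1 - beta p i * beta p i else 0) := by
    intro i k
    by_cases hik : i = k
    · subst hik; simp
    · simp [hik]
  simp only [h3, add_mul, Finset.sum_add_distrib]
  have h4 : ∑ i : Fin n, ∑ k : Fin n, beta p i * beta p k * ∑ x, ind p x
      = (∑ x, ind p x) * (∑ i, beta p i) ^ 2 := by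
    rw [sq, Finset.sum_mul_sum, Finset.mul_sum]
    apply Finset.sum_congr rfl
    intro i _
    rw [Finset.mul_sum]
    apply Finset.sum_congr rfl
    intro k _
    ring
  have h5 : ∑ i : Fin n, ∑ k : Fin n,
      (if i = k then 1 - beta p i * beta p i else 0) * ∑ x, ind p x
      = (∑ x, ind p x) * (- ((univ.filter (fun i => p i ≠ none)).card : ℝ) + n) := by
    have : ∀ i : Fin n, ∑ k : Fin n,
        (if i = k then 1 - beta p i * beta p i else 0) * ∑ x, ind p x
        = (1 - (if p i ≠ none then (1 : ℝ) else 0)) * ∑ x, ind p x := by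
      intro i
      rw [← Finset.sum_mul, Finset.sum_ite_eq, if_pos (Finset.mem_univ i), beta_sq]
    simp only [this]
    rw [← Finset.sum_mul, Finset.sum_sub_distrib, Finset.sum_boole]
    simp
    ring
  rw [h4, h5]
  ring

/-- the number of points of a subcube -/
lemma sum_ind_mul_pow (p : Fin n → Option Bool) :
    (∑ x, ind p x) * 2 ^ (univ.filter (fun i => p i ≠ none)).card = 2 ^ n := by
  have h1 : ∀ x : Fin n → Bool, ind p x
      = ∏ i, (if p i ≠ some (!x i) then (1 : ℝ) else 0) := by
    intro x
    rw [Finset.prod_boole]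
    unfold ind
    have : (∀ i b, p i = some b → x i = b) ↔ (∀ i ∈ (univ : Finset (Fin n)), p i ≠ some (!x i)) := by
      constructor
      · intro h i _ hi
        have := h i _ hi
        cases hx : x i <;> simp [hx] at this
      · intro h i b hi
        have := h i (Finset.mem_univ i)
        rw [hi] at this
        cases hx : x i <;> cases b <;> simp_all
    by_cases h : ∀ i b, p i = some b → x i = b
    · rw [if_pos h, if_pos (this.mp h)]
    · rw [if_neg h, if_neg (fun h' => h (this.mpr h'))]
  have h2 : ∑ x : Fin n → Bool, ind p x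
      = ∏ i : Fin n, ∑ c : Bool, (if p i ≠ some (!c) then (1 : ℝ) else 0) := by
    rw [Fintype.prod_sum]
    exact Finset.sum_congr rfl (fun x _ => h1 x)
  have h3 : ∀ i : Fin n, ∑ c : Bool, (if p i ≠ some (!c) then (1 : ℝ) else 0)
      = if p i ≠ none then 1 else 2 := by
    intro i
    rw [Fintype.sum_bool]
    cases hi : p i with
    | none => simp; norm_num
    | some b => cases b <;> simp
  have h4 : (2 : ℝ) ^ (univ.filter (fun i => p i ≠ none)).card
      = ∏ i : Fin n, (if p i ≠ none then (2 : ℝ) else 1) := by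
    rw [Finset.prod_ite]
    simp
  rw [h2, h4, ← Finset.prod_mul_distrib]
  have h5 : ∀ i : Fin n, (∑ c : Bool, (if p i ≠ some (!c) then (1 : ℝ) else 0))
      * (if p i ≠ none then (2 : ℝ) else 1) = 2 := by
    intro i
    rw [h3]
    split_ifs <;> norm_num
  simp only [h5]
  simp

/-- moments of the linear form over the whole cube -/
lemma sum_lin : ∑ x : Fin n → Bool, lin x = 0 := by
  have h := sum_ind_lin (fun _ : Fin n => (none : Option Bool))
  have h1 : ∀ x : Fin n → Bool, ind (fun _ : Fin n => (none : Option Bool)) x = 1 := by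
    intro x; simp [ind]
  simp only [h1, one_mul] at h
  rw [h]
  simp [beta]

lemma sum_lin_sq : ∑ x : Fin n → Bool, lin x ^ 2 = n * 2 ^ n := by
  have h := sum_ind_lin_sq (fun _ : Fin n => (none : Option Bool))
  have h1 : ∀ x : Fin n → Bool, ind (fun _ : Fin n => (none : Option Bool)) x = 1 := by
    intro x; simp [ind]
  simp only [h1, one_mul] at h
  rw [h]
  simp [beta]
  ring

section main

variable {J : Type*} [Fintype J]

/-- **Level-one bound for fractional subcube partitions** (unnormalised form), together with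
nonnegativity of the variance term and the total weight identity. -/
theorem level_one_sq_le (n : ℕ) (a : J → Fin n → Option Bool) (lam v : J → ℝ)
    (f : (Fin n → Bool) → ℝ)
    (hlam : ∀ j, 0 ≤ lam j)
    (hcover : ∀ x : Fin n → Bool,
      ∑ j, (if ∀ i b, a j i = some b → x i = b then lam j else 0) = 1)
    (hconst : ∀ j, 0 < lam j → ∀ x : Fin n → Bool,
      (∀ i b, a j i = some b → x i = b) → f x = v j) :
    (∑ x, f x * lin x) ^ 2
      ≤ ((∑ x, f x ^ 2) * 2 ^ n - (∑ x, f x) ^ 2)
          * ∑ j, lam j * ((univ.filter (fun i => a j i ≠ none)).card : ℝ)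
              / 2 ^ (univ.filter (fun i => a j i ≠ none)).card ∧
    0 ≤ (∑ x, f x ^ 2) * 2 ^ n - (∑ x, f x) ^ 2 ∧
    ∑ j, lam j / 2 ^ (univ.filter (fun i => a j i ≠ none)).card = 1 := by
  classical
  -- abbreviations
  set N : J → ℝ := fun j => ∑ x, ind (a j) x with hN
  set B : J → ℝ := fun j => ∑ i, beta (a j) i with hB
  set k : J → ℝ := fun j => ((univ.filter (fun i => a j i ≠ none)).card : ℝ) with hk
  have hNnn : ∀ j, 0 ≤ N j := by
    intro j
    apply Finset.sum_nonneg
    intro x _
    unfold ind
    split_ifs <;> norm_num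
  -- resolution of the identity
  have F1 : ∀ F : (Fin n → Bool) → ℝ, ∑ x, F x = ∑ j, lam j * ∑ x, ind (a j) x * F x := by
    intro F
    have : ∀ x : Fin n → Bool, F x = ∑ j, lam j * (ind (a j) x * F x) := by
      intro x
      have hx := hcover x
      have : ∀ j, lam j * (ind (a j) x * F x)
          = (if ∀ i b, a j i = some b → x i = b then lam j else 0) * F x := by
        intro j
        unfold ind
        split_ifs <;> ring
      simp only [this]
      rw [← Finset.sum_mul, hx, one_mul]
    calc ∑ x, F x = ∑ x, ∑ j, lam j * (ind (a j) x * F x) :=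
          Finset.sum_congr rfl (fun x _ => this x)
      _ = ∑ j, ∑ x, lam j * (ind (a j) x * F x) := Finset.sum_comm
      _ = ∑ j, lam j * ∑ x, ind (a j) x * F x := by
          apply Finset.sum_congr rfl; intro j _; rw [Finset.mul_sum]
  -- constancy on cells
  have F2 : ∀ (G : (Fin n → Bool) → ℝ) (j : J),
      lam j * ∑ x, ind (a j) x * (f x * G x) = lam j * (v j * ∑ x, ind (a j) x * G x) := by
    intro G j
    rcases (hlam j).eq_or_lt with h0 | hpos
    · rw [← h0]; ring
    · congr 1
      rw [Finset.mul_sum]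
      apply Finset.sum_congr rfl
      intro x _
      unfold ind
      split_ifs with hx
      · rw [hconst j hpos x hx]; ring
      · ring
  have F2' : ∀ (j : J),
      lam j * ∑ x, ind (a j) x * (f x ^ 2) = lam j * (v j ^ 2 * ∑ x, ind (a j) x) := by
    intro j
    rcases (hlam j).eq_or_lt with h0 | hpos
    · rw [← h0]; ring
    · congr 1
      rw [Finset.mul_sum]
      apply Finset.sum_congr rfl
      intro x _
      unfold ind
      split_ifs with hx
      · rw [hconst j hpos x hx]; ring
      · ring
  -- the five identities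
  have I1 : ∑ x, f x * lin x = ∑ j, lam j * N j * (v j * B j) := by
    rw [F1 (fun x => f x * lin x)]
    apply Finset.sum_congr rfl
    intro j _
    rw [F2 lin j, sum_ind_lin]
    ring
  have I2 : ∑ j, lam j * N j * B j = 0 := by
    have := F1 (fun x => lin x)
    rw [sum_lin] at this
    rw [this]
    apply Finset.sum_congr rfl
    intro j _
    rw [sum_ind_lin]
    ring
  have I3 : ∑ j, lam j * N j = 2 ^ n := by
    have := F1 (fun _ => (1 : ℝ))
    simp only [mul_one, Finset.sum_const, Finset.card_univ, Fintype.card_pi, Fintype.card_bool,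
      Finset.prod_const, Fintype.card_fin, nsmul_eq_mul, Nat.cast_pow, Nat.cast_ofNat] at this
    rw [this]
  have I4 : ∑ j, lam j * N j * B j ^ 2 = ∑ j, lam j * N j * k j := by
    have h := F1 (fun x => lin x ^ 2)
    rw [sum_lin_sq] at h
    have h' : ∑ j, lam j * ∑ x, ind (a j) x * lin x ^ 2
        = ∑ j, lam j * N j * B j ^ 2 - ∑ j, lam j * N j * k j + n * ∑ j, lam j * N j := by
      rw [Finset.mul_sum, ← Finset.sum_sub_distrib, ← Finset.sum_add_distrib]
      apply Finset.sum_congr rfl
      intro j _
      rw [sum_ind_lin_sq]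
      ring
    rw [h', I3] at h
    linarith
  have I5 : ∑ x, f x = ∑ j, lam j * N j * v j := by
    rw [F1 f]
    apply Finset.sum_congr rfl
    intro j _
    have := F2 (fun _ => 1) j
    simp only [mul_one] at this
    rw [this]
    ring
  have I6 : ∑ x, f x ^ 2 = ∑ j, lam j * N j * v j ^ 2 := by
    rw [F1 (fun x => f x ^ 2)]
    apply Finset.sum_congr rfl
    intro j _
    rw [F2' j]
    ring
  -- centering
  set m : ℝ := (∑ x, f x) / 2 ^ n with hm
  have h2n : (0 : ℝ) < 2 ^ n := by positivity
  have hmT : ∑ x, f x = m * 2 ^ n := by rw [hm]; field_simp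
  have I7 : ∑ x, f x * lin x = ∑ j, lam j * N j * (v j - m) * B j := by
    rw [I1]
    have : ∑ j, lam j * N j * (v j - m) * B j
        = ∑ j, lam j * N j * (v j * B j) - m * ∑ j, lam j * N j * B j := by
      rw [Finset.mul_sum, ← Finset.sum_sub_distrib]
      apply Finset.sum_congr rfl
      intro j _
      ring
    rw [this, I2]
    ring
  -- Cauchy-Schwarz
  have CS : (∑ j, lam j * N j * (v j - m) * B j) ^ 2
      ≤ (∑ j, lam j * N j * (v j - m) ^ 2) * ∑ j, lam j * N j * B j ^ 2 := by
    apply Finset.sum_sq_le_sum_mul_sum_of_sq_le_mul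
    · intro j _
      exact mul_nonneg (mul_nonneg (hlam j) (hNnn j)) (sq_nonneg _)
    · intro j _
      exact mul_nonneg (mul_nonneg (hlam j) (hNnn j)) (sq_nonneg _)
    · intro j _
      apply le_of_eq
      ring
  have V : ∑ j, lam j * N j * (v j - m) ^ 2 = ∑ x, f x ^ 2 - m ^ 2 * 2 ^ n := by
    have : ∑ j, lam j * N j * (v j - m) ^ 2
        = ∑ j, lam j * N j * v j ^ 2 - 2 * m * ∑ j, lam j * N j * v j
          + m ^ 2 * ∑ j, lam j * N j := by
      rw [Finset.mul_sum, Finset.mul_sum, ← Finset.sum_sub_distrib, ← Finset.sum_add_distrib]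
      apply Finset.sum_congr rfl
      intro j _
      ring
    rw [this, ← I6, ← I5, I3, hmT]
    ring
  have hNpow : ∀ j, N j = 2 ^ n / 2 ^ (univ.filter (fun i => a j i ≠ none)).card := by
    intro j
    have := sum_ind_mul_pow (a j)
    have hp : (0 : ℝ) < 2 ^ (univ.filter (fun i => a j i ≠ none)).card := by positivity
    rw [eq_div_iff hp.ne']
    exact this
  have Vnn : 0 ≤ ∑ x, f x ^ 2 - m ^ 2 * 2 ^ n := by
    rw [← V]
    apply Finset.sum_nonneg
    intro j _
    exact mul_nonneg (mul_nonneg (hlam j) (hNnn j)) (sq_nonneg _)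
  have Q : (∑ x, f x ^ 2) * 2 ^ n - (∑ x, f x) ^ 2
      = (∑ x, f x ^ 2 - m ^ 2 * 2 ^ n) * 2 ^ n := by
    rw [hmT]; ring
  refine ⟨?_, ?_, ?_⟩
  · rw [I7]
    calc (∑ j, lam j * N j * (v j - m) * B j) ^ 2
        ≤ (∑ j, lam j * N j * (v j - m) ^ 2) * ∑ j, lam j * N j * B j ^ 2 := CS
      _ = (∑ x, f x ^ 2 - m ^ 2 * 2 ^ n) * ∑ j, lam j * N j * k j := by rw [V, I4]
      _ = ((∑ x, f x ^ 2) * 2 ^ n - (∑ x, f x) ^ 2)
            * ∑ j, lam j * ((univ.filter (fun i => a j i ≠ none)).card : ℝ)
                / 2 ^ (univ.filter (fun i => a j i ≠ none)).card := by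
          rw [Q, mul_assoc]
          congr 1
          rw [Finset.mul_sum]
          apply Finset.sum_congr rfl
          intro j _
          have hkj : k j = ((univ.filter (fun i => a j i ≠ none)).card : ℝ) := rfl
          rw [hNpow j, hkj]
          ring
  · rw [Q]
    exact mul_nonneg Vnn h2n.le
  · have : ∑ j, lam j / 2 ^ (univ.filter (fun i => a j i ≠ none)).card
        = (∑ j, lam j * N j) / 2 ^ n := by
      rw [Finset.sum_div]
      apply Finset.sum_congr rfl
      intro j _
      rw [hNpow j]
      field_simp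
    rw [this, I3]
    field_simp

/-- the level-one sum written coordinatewise equals the correlation with the linear form -/
lemma level_one_eq (n : ℕ) (f : (Fin n → Bool) → ℝ) :
    (∑ i : Fin n, (∑ x : Fin n → Bool, f x * (if x i then (-1 : ℝ) else 1)) / 2 ^ n)
      = (∑ x, f x * lin x) / 2 ^ n := by
  rw [← Finset.sum_div, Finset.sum_comm]
  congr 1
  apply Finset.sum_congr rfl
  intro x _
  rw [← Finset.mul_sum]
  rfl

/-- **Main statement**: the level-one bound for fractional subcube partitions, normalised. -/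
theorem main_statement (n : ℕ) (J : Type) [Fintype J]
    (a : J → Fin n → Option Bool) (lam : J → ℝ) (f : (Fin n → Bool) → ℝ)
    (hlam : ∀ j, 0 ≤ lam j)
    (hcover : ∀ x : Fin n → Bool,
      ∑ j, (if ∀ i b, a j i = some b → x i = b then lam j else 0) = 1)
    (hconst : ∀ j, 0 < lam j → ∀ x y : Fin n → Bool,
      (∀ i b, a j i = some b → x i = b) → (∀ i b, a j i = some b → y i = b) → f x = f y) :
    (∑ i : Fin n, (∑ x : Fin n → Bool, f x * (if x i then (-1 : ℝ) else 1)) / 2 ^ n) ^ 2
      ≤ ((∑ x : Fin n → Bool, f x ^ 2) / 2 ^ n - ((∑ x : Fin n → Bool, f x) / 2 ^ n) ^ 2)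
          * ∑ j, lam j * ((Finset.univ.filter (fun i => a j i ≠ none)).card : ℝ)
              / 2 ^ (Finset.univ.filter (fun i => a j i ≠ none)).card
    ∧
    ∀ D : ℕ, (∀ x, f x = 1 ∨ f x = -1) →
      (∀ j, 0 < lam j → (Finset.univ.filter (fun i => a j i ≠ none)).card ≤ D) →
      (∑ i : Fin n, (∑ x : Fin n → Bool, f x * (if x i then (-1 : ℝ) else 1)) / 2 ^ n) ^ 2
        ≤ (1 - ((∑ x : Fin n → Bool, f x) / 2 ^ n) ^ 2) * D := by
  -- a point of each cell
  set pt : J → Fin n → Bool := fun j i => (a j i).getD false with hpt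
  have hptmem : ∀ j, ∀ i b, a j i = some b → pt j i = b := by
    intro j i b hi
    simp [hpt, hi]
  obtain ⟨h1, h2, h3⟩ := level_one_sq_le n a lam (fun j => f (pt j)) f hlam hcover
    (fun j hj x hx => hconst j hj x (pt j) hx (hptmem j))
  have h2n : (0 : ℝ) < 2 ^ n := by positivity
  rw [level_one_eq]
  have hQ : ((∑ x : Fin n → Bool, f x ^ 2) / 2 ^ n - ((∑ x : Fin n → Bool, f x) / 2 ^ n) ^ 2)
      = ((∑ x, f x ^ 2) * 2 ^ n - (∑ x, f x) ^ 2) / (2 ^ n) ^ 2 := by
    field_simp
  have hS0 : 0 ≤ ∑ j, lam j * ((Finset.univ.filter (fun i => a j i ≠ none)).card : ℝ)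
      / 2 ^ (Finset.univ.filter (fun i => a j i ≠ none)).card := by
    apply Finset.sum_nonneg
    intro j _
    have := hlam j
    positivity
  have main : ((∑ x, f x * lin x) / 2 ^ n) ^ 2
      ≤ ((∑ x : Fin n → Bool, f x ^ 2) / 2 ^ n - ((∑ x : Fin n → Bool, f x) / 2 ^ n) ^ 2)
          * ∑ j, lam j * ((Finset.univ.filter (fun i => a j i ≠ none)).card : ℝ)
              / 2 ^ (Finset.univ.filter (fun i => a j i ≠ none)).card := by
    rw [hQ, div_pow, div_mul_eq_mul_div]
    exact div_le_div_of_nonneg_right h1 (by positivity)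
  refine ⟨main, ?_⟩
  intro D hbool hD
  have hsq : ∑ x : Fin n → Bool, f x ^ 2 = 2 ^ n := by
    have : ∀ x : Fin n → Bool, f x ^ 2 = 1 := by
      intro x
      rcases hbool x with h | h <;> rw [h] <;> norm_num
    simp [this]
  have hvar : ((∑ x : Fin n → Bool, f x ^ 2) / 2 ^ n - ((∑ x : Fin n → Bool, f x) / 2 ^ n) ^ 2)
      = 1 - ((∑ x : Fin n → Bool, f x) / 2 ^ n) ^ 2 := by
    rw [hsq]; field_simp
  have hvar0 : 0 ≤ 1 - ((∑ x : Fin n → Bool, f x) / 2 ^ n) ^ 2 := by
    rw [← hvar, hQ]
    exact div_nonneg h2 (by positivity)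
  have hS : ∑ j, lam j * ((Finset.univ.filter (fun i => a j i ≠ none)).card : ℝ)
      / 2 ^ (Finset.univ.filter (fun i => a j i ≠ none)).card ≤ D := by
    calc ∑ j, lam j * ((Finset.univ.filter (fun i => a j i ≠ none)).card : ℝ)
          / 2 ^ (Finset.univ.filter (fun i => a j i ≠ none)).card
        ≤ ∑ j, (D : ℝ) * (lam j / 2 ^ (Finset.univ.filter (fun i => a j i ≠ none)).card) := by
          apply Finset.sum_le_sum
          intro j _
          have hp : (0 : ℝ) < 2 ^ (Finset.univ.filter (fun i => a j i ≠ none)).card := by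
            positivity
          rcases (hlam j).eq_or_lt with h0 | hpos
          · rw [← h0]; simp
          · have hc : ((Finset.univ.filter (fun i => a j i ≠ none)).card : ℝ) ≤ D := by
              exact_mod_cast hD j hpos
            have e : lam j * ((Finset.univ.filter (fun i => a j i ≠ none)).card : ℝ)
                / 2 ^ (Finset.univ.filter (fun i => a j i ≠ none)).card
                = ((Finset.univ.filter (fun i => a j i ≠ none)).card : ℝ)
                  * (lam j / 2 ^ (Finset.univ.filter (fun i => a j i ≠ none)).card) := by ring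
            rw [e]
            exact mul_le_mul_of_nonneg_right hc (div_nonneg hpos.le hp.le)
      _ = D := by rw [← Finset.mul_sum, h3, mul_one]
  calc ((∑ x, f x * lin x) / 2 ^ n) ^ 2
      ≤ ((∑ x : Fin n → Bool, f x ^ 2) / 2 ^ n - ((∑ x : Fin n → Bool, f x) / 2 ^ n) ^ 2)
          * ∑ j, lam j * ((Finset.univ.filter (fun i => a j i ≠ none)).card : ℝ)
              / 2 ^ (Finset.univ.filter (fun i => a j i ≠ none)).card := main
    _ = (1 - ((∑ x : Fin n → Bool, f x) / 2 ^ n) ^ 2)
          * ∑ j, lam j * ((Finset.univ.filter (fun i => a j i ≠ none)).card : ℝ)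
              / 2 ^ (Finset.univ.filter (fun i => a j i ≠ none)).card := by rw [hvar]
    _ ≤ (1 - ((∑ x : Fin n → Bool, f x) / 2 ^ n) ^ 2) * D :=
        mul_le_mul_of_nonneg_left hS hvar0

end main

end Vale.Agent.H26.SP
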